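import Vale.Agent.Lib.P165.Wc

/-!
The bound on the sum over good pairs, in terms of walk counts.
-/

open Finset

noncomputable section

namespace Vale.Agent.Lib.P165

attribute [local instance] Classical.propDecidable

variable {V : Type*} (G : SimpleGraph V) [G.LocallyFinite]

lemma gp_le (w x y : V) (n₂ n₃ : ℕ) : gp G w x y n₂ n₃ ≤ wc G n₂ w x * wc G n₃ w y := by
  unfold gp goodPairs
  refine (Finset.card_filter_le _ _).trans ?_
  rw [Finset.card_product, card_finsetWalkLength, card_finsetWalkLength]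

omit [G.LocallyFinite] in
lemma edge_of_length_one {a b : V} (π : G.Walk a b) (h : π.length = 1) : s(a, b) ∈ π.edges := by
  cases π with
  | nil => simp at h
  | cons hadj p =>
    have hp : p.length = 0 := by simpa using h
    have := SimpleGraph.Walk.eq_of_length_eq_zero hp
    subst this
    simp

lemma gp_zero {w x y : V} (hadj : G.Adj x y) {n₂ n₃ : ℕ} (h : n₂ + n₃ ≤ 1) :
    gp G w x y n₂ n₃ = 0 := by
  unfold gp goodPairs
  rw [Finset.card_eq_zero, Finset.filter_eq_empty_iff]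
  rintro ⟨π₂, π₃⟩ hq ⟨_, h2, h3⟩
  rw [Finset.mem_product] at hq
  have l2 : π₂.length = n₂ := SimpleGraph.mem_finsetWalkLength_iff.mp hq.1
  have l3 : π₃.length = n₃ := SimpleGraph.mem_finsetWalkLength_iff.mp hq.2
  simp only at h2 h3
  have hcases : (n₂ = 0 ∧ n₃ = 0) ∨ (n₂ = 1 ∧ n₃ = 0) ∨ (n₂ = 0 ∧ n₃ = 1) := by omega
  rcases hcases with ⟨a, b⟩ | ⟨a, b⟩ | ⟨a, b⟩
  · have e1 := SimpleGraph.Walk.eq_of_length_eq_zero (l2.trans a)
    have e2 := SimpleGraph.Walk.eq_of_length_eq_zero (l3.trans b)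
    exact hadj.ne (e1.symm.trans e2)
  · have e2 := SimpleGraph.Walk.eq_of_length_eq_zero (l3.trans b)
    subst e2
    have := edge_of_length_one G π₂ (l2.trans a)
    rw [Sym2.eq_swap] at this
    exact h2 this
  · have e2 := SimpleGraph.Walk.eq_of_length_eq_zero (l2.trans a)
    subst e2
    exact h3 (edge_of_length_one G π₃ (l3.trans b))

/-- Sum of the counts of good pairs over all edges with fixed lengths. -/
lemma sum_gp_le (w : V) (S : Finset V) (n₂ n₃ : ℕ) :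
    ∑ x ∈ S, ∑ y ∈ nb G S x, gp G w x y n₂ n₃ ≤ wc G (n₂ + (n₃ + 1)) w w := by
  have h1 : ∀ x ∈ S, ∑ y ∈ nb G S x, gp G w x y n₂ n₃ ≤ wc G n₂ w x * wc G (n₃ + 1) x w := by
    intro x _
    calc ∑ y ∈ nb G S x, gp G w x y n₂ n₃
        ≤ ∑ y ∈ nb G S x, wc G n₂ w x * wc G n₃ w y :=
          Finset.sum_le_sum (fun y _ => gp_le G w x y n₂ n₃)
      _ = wc G n₂ w x * ∑ y ∈ nb G S x, wc G n₃ y w := by
          rw [Finset.mul_sum]
          apply Finset.sum_congr rfl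
          intro y _
          rw [wc_symm G n₃ w y]
      _ ≤ wc G n₂ w x * ∑ y ∈ G.neighborFinset x, wc G n₃ y w :=
          Nat.mul_le_mul_left _ (Finset.sum_le_sum_of_subset (Finset.filter_subset _ _))
      _ = wc G n₂ w x * wc G (n₃ + 1) x w := by rw [wc_succ]
  exact (Finset.sum_le_sum h1).trans (sum_wc_le G n₂ (n₃ + 1) w w S)

/-- Partial geometric sums. -/
lemma geom_le {κ : ℝ} (h0 : 0 ≤ κ) (h1 : κ < 1) (n : ℕ) :
    ∑ i ∈ Finset.range n, κ ^ i ≤ 1 / (1 - κ) := by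
  have h2 : 0 < 1 - κ := by linarith
  rw [le_div_iff₀ h2]
  have := geom_sum_mul_neg κ n
  have h3 : 0 ≤ κ ^ n := pow_nonneg h0 n
  linarith

/-- The exponent-shifted double geometric sum. -/
def ee (κ : ℝ) (a b : ℕ) : ℝ := if a + b ≤ 1 then 0 else κ ^ (a + b - 1)

lemma sum_ee_le {κ : ℝ} (h0 : 0 ≤ κ) (h1 : κ < 1) (L : ℕ) :
    ∑ a ∈ Finset.range (L + 1), ∑ b ∈ Finset.range (L + 1), ee κ a b ≤ 2 / (1 - κ) ^ 2 := by
  have h2 : 0 < 1 - κ := by linarith
  have hle1 : 1 - κ ≤ 1 := by linarith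
  have hg := geom_le h0 h1
  have hpos : 0 ≤ 1 / (1 - κ) := by positivity
  rw [Finset.sum_range_succ']
  have hA : ∑ k ∈ Finset.range L, ∑ b ∈ Finset.range (L + 1), ee κ (k + 1) b ≤ 1 / (1 - κ) ^ 2 := by
    have h3 : ∀ k ∈ Finset.range L, ∑ b ∈ Finset.range (L + 1), ee κ (k + 1) b
        ≤ κ ^ k * (1 / (1 - κ)) := by
      intro k _
      calc ∑ b ∈ Finset.range (L + 1), ee κ (k + 1) b
          ≤ ∑ b ∈ Finset.range (L + 1), κ ^ k * κ ^ b := by
            apply Finset.sum_le_sum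
            intro b _
            unfold ee
            split_ifs with hc
            · exact mul_nonneg (pow_nonneg h0 _) (pow_nonneg h0 _)
            · rw [← pow_add]
              apply le_of_eq
              congr 1
              omega
        _ = κ ^ k * ∑ b ∈ Finset.range (L + 1), κ ^ b := by rw [Finset.mul_sum]
        _ ≤ κ ^ k * (1 / (1 - κ)) := mul_le_mul_of_nonneg_left (hg _) (pow_nonneg h0 _)
    calc _ ≤ ∑ k ∈ Finset.range L, κ ^ k * (1 / (1 - κ)) := Finset.sum_le_sum h3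
      _ = (∑ k ∈ Finset.range L, κ ^ k) * (1 / (1 - κ)) := by rw [Finset.sum_mul]
      _ ≤ (1 / (1 - κ)) * (1 / (1 - κ)) := mul_le_mul_of_nonneg_right (hg _) hpos
      _ = 1 / (1 - κ) ^ 2 := by field_simp
  have hB : ∑ b ∈ Finset.range (L + 1), ee κ 0 b ≤ 1 / (1 - κ) ^ 2 := by
    rw [Finset.sum_range_succ']
    have e0 : ee κ 0 0 = 0 := by simp [ee]
    rw [e0, add_zero]
    have h3 : ∀ k ∈ Finset.range L, ee κ 0 (k + 1) ≤ κ ^ k := by
      intro k _
      unfold ee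
      split_ifs with hc
      · exact pow_nonneg h0 _
      · apply le_of_eq
        congr 1
        omega
    have h4 := (Finset.sum_le_sum h3).trans (hg L)
    refine h4.trans ?_
    have h5 : 1 / (1 - κ) ≤ 1 / (1 - κ) ^ 2 := by
      apply one_div_le_one_div_of_le (by positivity)
      nlinarith
    exact h5
  have e2 : 2 / (1 - κ) ^ 2 = 1 / (1 - κ) ^ 2 + 1 / (1 - κ) ^ 2 := by ring
  rw [e2]
  exact add_le_add hA hB

/-- The uniform bound on good pairs, given the spectral bound. -/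
theorem pair_sum_le {r : ℝ} (hr0 : 0 ≤ r) (hr : ∀ x n, (wc G (2 * n) x x : ℝ) ≤ r ^ (2 * n))
    {p : ℝ} (hp0 : 0 ≤ p) (hκ : p * r < 1) {Δ : ℝ} (hΔ : ∀ v, (G.degree v : ℝ) ≤ Δ)
    (w : V) (S : Finset V) (L : ℕ) :
    ∑ x ∈ S, ∑ y ∈ nb G S x, ∑ n₂ ∈ Finset.range (L + 1), ∑ n₃ ∈ Finset.range (L + 1),
      p ^ (n₂ + n₃) * (gp G w x y n₂ n₃ : ℝ) ≤ p * Δ * (2 / (1 - p * r) ^ 2) := by
  have hΔ0 : 0 ≤ Δ := (Nat.cast_nonneg _).trans (hΔ w)
  have hκ0 : 0 ≤ p * r := mul_nonneg hp0 hr0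
  have e1 : ∑ x ∈ S, ∑ y ∈ nb G S x, ∑ n₂ ∈ Finset.range (L + 1), ∑ n₃ ∈ Finset.range (L + 1),
      p ^ (n₂ + n₃) * (gp G w x y n₂ n₃ : ℝ)
      = ∑ n₂ ∈ Finset.range (L + 1), ∑ n₃ ∈ Finset.range (L + 1),
        p ^ (n₂ + n₃) * (∑ x ∈ S, ∑ y ∈ nb G S x, (gp G w x y n₂ n₃ : ℝ)) := by
    calc _ = ∑ x ∈ S, ∑ n₂ ∈ Finset.range (L + 1), ∑ y ∈ nb G S x, ∑ n₃ ∈ Finset.range (L + 1),
          p ^ (n₂ + n₃) * (gp G w x y n₂ n₃ : ℝ) :=
          Finset.sum_congr rfl (fun x _ => Finset.sum_comm)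
      _ = ∑ n₂ ∈ Finset.range (L + 1), ∑ x ∈ S, ∑ y ∈ nb G S x, ∑ n₃ ∈ Finset.range (L + 1),
          p ^ (n₂ + n₃) * (gp G w x y n₂ n₃ : ℝ) := Finset.sum_comm
      _ = ∑ n₂ ∈ Finset.range (L + 1), ∑ n₃ ∈ Finset.range (L + 1), ∑ x ∈ S, ∑ y ∈ nb G S x,
          p ^ (n₂ + n₃) * (gp G w x y n₂ n₃ : ℝ) := by
          apply Finset.sum_congr rfl
          intro n₂ _
          calc _ = ∑ x ∈ S, ∑ n₃ ∈ Finset.range (L + 1), ∑ y ∈ nb G S x,
                p ^ (n₂ + n₃) * (gp G w x y n₂ n₃ : ℝ) :=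
                Finset.sum_congr rfl (fun x _ => Finset.sum_comm)
            _ = _ := Finset.sum_comm
      _ = _ := by
          apply Finset.sum_congr rfl
          intro n₂ _
          apply Finset.sum_congr rfl
          intro n₃ _
          rw [Finset.mul_sum]
          apply Finset.sum_congr rfl
          intro x _
          rw [Finset.mul_sum]
  rw [e1]
  have hterm : ∀ n₂ n₃ : ℕ, p ^ (n₂ + n₃) * (∑ x ∈ S, ∑ y ∈ nb G S x, (gp G w x y n₂ n₃ : ℝ))
      ≤ p * Δ * ee (p * r) n₂ n₃ := by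
    intro n₂ n₃
    unfold ee
    split_ifs with hc
    · have : ∑ x ∈ S, ∑ y ∈ nb G S x, (gp G w x y n₂ n₃ : ℝ) = 0 := by
        apply Finset.sum_eq_zero
        intro x _
        apply Finset.sum_eq_zero
        intro y hy
        rw [gp_zero G ((mem_nb G).mp hy).1 hc]
        simp
      rw [this]
      simp
    · obtain ⟨m, hm⟩ : ∃ m, n₂ + n₃ = m + 1 := ⟨n₂ + n₃ - 1, by omega⟩
      have hs : ∑ x ∈ S, ∑ y ∈ nb G S x, (gp G w x y n₂ n₃ : ℝ) ≤ (wc G (m + 2) w w : ℝ) := by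
        have := sum_gp_le G w S n₂ n₃
        have e : n₂ + (n₃ + 1) = m + 2 := by omega
        rw [e] at this
        exact_mod_cast this
      have hc2 := wc_closed_le G hr0 hr w m
      have hc3 : (wc G (m + 2) w w : ℝ) ≤ Δ * r ^ m :=
        hc2.trans (mul_le_mul_of_nonneg_right (hΔ w) (pow_nonneg hr0 _))
      have e3 : n₂ + n₃ - 1 = m := by omega
      rw [e3, hm]
      calc p ^ (m + 1) * (∑ x ∈ S, ∑ y ∈ nb G S x, (gp G w x y n₂ n₃ : ℝ))
          ≤ p ^ (m + 1) * (Δ * r ^ m) :=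
            mul_le_mul_of_nonneg_left (hs.trans hc3) (pow_nonneg hp0 _)
        _ = p * Δ * (p * r) ^ m := by
            rw [mul_pow, pow_succ]
            ring
  calc _ ≤ ∑ n₂ ∈ Finset.range (L + 1), ∑ n₃ ∈ Finset.range (L + 1),
        p * Δ * ee (p * r) n₂ n₃ :=
        Finset.sum_le_sum (fun n₂ _ => Finset.sum_le_sum (fun n₃ _ => hterm n₂ n₃))
    _ = p * Δ * ∑ n₂ ∈ Finset.range (L + 1), ∑ n₃ ∈ Finset.range (L + 1), ee (p * r) n₂ n₃ := by
        rw [Finset.mul_sum]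
        apply Finset.sum_congr rfl
        intro n₂ _
        rw [Finset.mul_sum]
    _ ≤ _ := mul_le_mul_of_nonneg_left (sum_ee_le hκ0 hκ L) (mul_nonneg hp0 hΔ0)

end Vale.Agent.Lib.P165
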