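import Vale.Agent.Lib.P165.Phi

/-!
The differential inequality of Duminil-Copin and Tassion in a finite volume.
-/

open Finset

noncomputable section

namespace Vale.Agent.Lib.P165

attribute [local instance] Classical.propDecidable

variable {V : Type*} (G : SimpleGraph V) [G.LocallyFinite]

/-- Connection to the target set `B`. -/
def reachB (B : Finset V) (A : Finset (Sym2 V)) (x : V) : Prop := ∃ b ∈ B, conn A x b

lemma reachB_mono {B : Finset V} {A A' : Finset (Sym2 V)} (h : A ⊆ A') {x : V}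
    (hr : reachB B A x) : reachB B A' x := by
  obtain ⟨b, hb, hc⟩ := hr
  exact ⟨b, hb, conn_mono h hc⟩

/-- The vertices of `Λ` not connected to `B`. -/
def SS (Λ B : Finset V) (A : Finset (Sym2 V)) : Finset V := Λ.filter (fun x => ¬ reachB B A x)

lemma mem_SS {Λ B : Finset V} {A : Finset (Sym2 V)} {x : V} :
    x ∈ SS Λ B A ↔ x ∈ Λ ∧ ¬ reachB B A x := by
  simp [SS]

omit [G.LocallyFinite] in
lemma SS_forward {Λ B S : Finset V} (hB : B ⊆ Λ) {A : Finset (Sym2 V)}
    (hA : A ⊆ inE G Λ) (h : SS Λ B A = S) : SS Λ B (A ∩ (inE G Λ \ inE G S)) = S := by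
  obtain ⟨A₂, hA₂⟩ : ∃ A₂, A₂ = A ∩ (inE G Λ \ inE G S) := ⟨_, rfl⟩
  rw [← hA₂]
  have hsub : A₂ ⊆ A := by rw [hA₂]; exact Finset.inter_subset_left
  ext v
  rw [mem_SS]
  constructor
  · rintro ⟨hv, hn⟩
    by_contra hvS
    have hr : reachB B A v := by
      by_contra hr
      apply hvS
      rw [← h]
      exact mem_SS.mpr ⟨hv, hr⟩
    obtain ⟨b, hb, hc⟩ := hr
    apply hn
    refine ⟨b, hb, conn_symm ?_⟩
    refine conn_closure (A := A) {u | conn A₂ b u} (fun u hu t hut hne => ?_) (conn_refl _ b)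
      (conn_symm hc)
    have hu' : conn A₂ b u := hu
    have huA : conn A b u := conn_mono hsub hu'
    have huΛ : u ∈ Λ := conn_mem_of_subset G hA (hB hb) huA
    have htΛ : t ∈ Λ := ((mk_mem_inE G).mp (hA hut)).2.2
    have hnS : ∀ z, z ∈ Λ → conn A b z → z ∉ S := by
      intro z _ hz hzS
      rw [← h] at hzS
      exact (mem_SS.mp hzS).2 ⟨b, hb, conn_symm hz⟩
    have huS := hnS u huΛ huA
    have hmem : s(u, t) ∈ A₂ := by
      rw [hA₂, Finset.mem_inter, Finset.mem_sdiff]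
      refine ⟨hut, hA hut, fun hin => huS ((mk_mem_inE G).mp hin).2.1⟩
    exact conn_trans hu' (conn_edge hmem hne)
  · intro hv
    have hv' : v ∈ SS Λ B A := by rw [h]; exact hv
    have := mem_SS.mp hv'
    exact ⟨this.1, fun hr => this.2 (reachB_mono hsub hr)⟩

omit [G.LocallyFinite] in
lemma SS_backward {Λ B S : Finset V} (hS : S ⊆ Λ) {A : Finset (Sym2 V)}
    (h : SS Λ B (A ∩ (inE G Λ \ inE G S)) = S) (hA : A ⊆ inE G Λ) : SS Λ B A = S := by
  obtain ⟨A₂, hA₂⟩ : ∃ A₂, A₂ = A ∩ (inE G Λ \ inE G S) := ⟨_, rfl⟩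
  rw [← hA₂] at h
  have hsub : A₂ ⊆ A := by rw [hA₂]; exact Finset.inter_subset_left
  ext v
  rw [mem_SS]
  constructor
  · rintro ⟨hv, hn⟩
    by_contra hvS
    apply hn
    have : ¬ (v ∈ SS Λ B A₂) := by rw [h]; exact hvS
    rw [mem_SS] at this
    push Not at this
    exact reachB_mono hsub (this hv)
  · intro hv
    refine ⟨hS hv, ?_⟩
    rintro ⟨b, hb, hc⟩
    have key : v ∈ {u | reachB B A₂ u} := by
      refine conn_closure (A := A) {u | reachB B A₂ u} (fun u hu t hut hne => ?_)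
        (⟨b, hb, conn_refl _ b⟩ : b ∈ {u | reachB B A₂ u}) (conn_symm hc)
      have hu' : reachB B A₂ u := hu
      have hnot : s(u, t) ∉ inE G S := by
        intro hin
        have huS := ((mk_mem_inE G).mp hin).2.1
        rw [← h] at huS
        exact (mem_SS.mp huS).2 hu'
      have hmem : s(u, t) ∈ A₂ := by
        rw [hA₂, Finset.mem_inter, Finset.mem_sdiff]
        exact ⟨hut, hA hut, hnot⟩
      obtain ⟨b', hb', hc'⟩ := hu'
      exact ⟨b', hb', conn_trans (conn_symm (conn_edge hmem hne)) hc'⟩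
    have hv2 : v ∈ SS Λ B A₂ := by rw [h]; exact hv
    exact (mem_SS.mp hv2).2 key

/-- The weight of the boundary functional in a configuration inside `S`. -/
def psi (o : V) (S : Finset V) (A : Finset (Sym2 V)) : ℝ :=
  ∑ x ∈ S, ((outN G S x).card : ℝ) * ind (conn A o x)

lemma Ex_psi (o : V) (S : Finset V) (p : ℝ) :
    Ex p (inE G S) (psi G o S) = ∑ x ∈ S, ((outN G S x).card : ℝ) * tt G o S p x := by
  unfold psi
  rw [Ex_sum]
  apply Finset.sum_congr rfl
  intro x _
  rw [Ex_const_mul]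
  rfl

/-- The integrand in Russo's formula. -/
def russoTerm (f : Finset (Sym2 V) → ℝ) (A : Finset (Sym2 V)) (e : Sym2 V) : ℝ :=
  ind (e ∉ A) * (f (insert e A) - f A)

lemma russo_mul (f : Finset (Sym2 V) → ℝ) (F : Finset (Sym2 V)) (p : ℝ) :
    (1 - p) * ∑ e ∈ F, Ex p (F.erase e) (fun A => f (insert e A) - f A)
      = Ex p F (fun A => ∑ e ∈ F, russoTerm f A e) := by
  rw [Ex_sum, Finset.mul_sum]
  apply Finset.sum_congr rfl
  intro e he
  have hF : insert e (F.erase e) = F := Finset.insert_erase he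
  have he₀ : e ∉ F.erase e := Finset.notMem_erase _ _
  obtain ⟨F₀, hF₀⟩ : ∃ F₀, F₀ = F.erase e := ⟨_, rfl⟩
  rw [← hF₀] at hF he₀ ⊢
  rw [← hF, Ex_insert he₀]
  have h1 : Ex p F₀ (fun A => russoTerm f (insert e A) e) = 0 := by
    have : Ex p F₀ (fun A => russoTerm f (insert e A) e) = Ex p F₀ (fun _ => 0) := by
      apply Ex_congr
      intro A _
      unfold russoTerm
      rw [ind_false (by simp), zero_mul]
    rw [this, Ex_const]
  have h2 : Ex p F₀ (fun A => russoTerm f A e) = Ex p F₀ (fun A => f (insert e A) - f A) := by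
    apply Ex_congr
    intro A hA
    unfold russoTerm
    rw [ind_true (fun h => he₀ (hA h)), one_mul]
  rw [h1, h2]
  ring

/-- The pointwise lower bound on the integrand in Russo's formula. -/
lemma psi_le_russo {Λ B : Finset V} {o : V} (hΛ : ∀ x ∈ Λ, x ∉ B → ∀ y, G.Adj x y → y ∈ Λ)
    {A : Finset (Sym2 V)} (ho : ¬ reachB B A o) :
    psi G o (SS Λ B A) (A ∩ inE G (SS Λ B A))
      ≤ ∑ e ∈ inE G Λ, russoTerm (fun A => ind (reachB B A o)) A e := by
  obtain ⟨S, hS⟩ : ∃ S, S = SS Λ B A := ⟨_, rfl⟩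
  rw [← hS]
  have hterm_nonneg : ∀ e, 0 ≤ russoTerm (fun A => ind (reachB B A o)) A e := by
    intro e
    unfold russoTerm
    apply mul_nonneg (ind_nonneg _)
    have : ind (reachB B A o) ≤ ind (reachB B (insert e A) o) :=
      ind_mono (reachB_mono (Finset.subset_insert e A))
    linarith
  obtain ⟨T, hT⟩ : ∃ T, T = (S.sigma (fun x => outN G S x)).filter
      (fun q => conn (A ∩ inE G S) o q.1) := ⟨_, rfl⟩
  have h1 : psi G o S (A ∩ inE G S) = (T.card : ℝ) := by
    unfold psi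
    rw [hT, Finset.card_filter]
    rw [Nat.cast_sum, Finset.sum_sigma]
    apply Finset.sum_congr rfl
    intro x _
    rw [Finset.sum_congr rfl (g := fun _ => if conn (A ∩ inE G S) o x then ((1 : ℕ) : ℝ) else
      ((0 : ℕ) : ℝ))]
    · rw [Finset.sum_const, nsmul_eq_mul]
      unfold ind
      split_ifs <;> simp
    · intro y _
      split_ifs <;> simp_all
  rw [h1]
  obtain ⟨m, hm⟩ : ∃ m : (Σ _ : V, V) → Sym2 V, m = fun q => s(q.1, q.2) := ⟨_, rfl⟩
  have hTmem : ∀ q ∈ T, q.1 ∈ S ∧ G.Adj q.1 q.2 ∧ q.2 ∉ S ∧ conn (A ∩ inE G S) o q.1 := by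
    intro q hq
    rw [hT, Finset.mem_filter, Finset.mem_sigma, mem_outN] at hq
    exact ⟨hq.1.1, hq.1.2.1, hq.1.2.2, hq.2⟩
  have hinj : Set.InjOn m T := by
    rintro ⟨x, y⟩ hq ⟨x', y'⟩ hq' heq
    have h2 := hTmem _ hq
    have h3 := hTmem _ hq'
    simp only [hm] at heq
    rcases Sym2.eq_iff.mp heq with ⟨a, b⟩ | ⟨a, _⟩
    · subst a; subst b; rfl
    · exact absurd (a ▸ h2.1) h3.2.2.1
  have h4 : (T.card : ℝ) = ∑ e ∈ T.image m, (1 : ℝ) := by
    rw [Finset.sum_const, nsmul_eq_mul, mul_one, Finset.card_image_of_injOn hinj]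
  rw [h4]
  have h5 : ∀ e ∈ T.image m, e ∈ inE G Λ ∧ russoTerm (fun A => ind (reachB B A o)) A e = 1 := by
    intro e he
    obtain ⟨q, hq, rfl⟩ := Finset.mem_image.mp he
    obtain ⟨hx, hadj, hy, hc⟩ := hTmem q hq
    have hxS : q.1 ∈ SS Λ B A := hS ▸ hx
    obtain ⟨hxΛ, hxn⟩ := mem_SS.mp hxS
    have hxB : q.1 ∉ B := fun h => hxn ⟨q.1, h, conn_refl _ _⟩
    have hyΛ : q.2 ∈ Λ := hΛ _ hxΛ hxB _ hadj
    have hyr : reachB B A q.2 := by
      by_contra hyr
      apply hy
      rw [hS]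
      exact mem_SS.mpr ⟨hyΛ, hyr⟩
    have hme : m q = s(q.1, q.2) := by rw [hm]
    rw [hme]
    refine ⟨(mk_mem_inE G).mpr ⟨hadj, hxΛ, hyΛ⟩, ?_⟩
    have hnot : s(q.1, q.2) ∉ A := by
      intro hin
      obtain ⟨b, hb, hcb⟩ := hyr
      exact hxn ⟨b, hb, conn_trans (conn_edge hin hadj.ne) hcb⟩
    unfold russoTerm
    rw [ind_true hnot, one_mul]
    show ind (reachB B (insert s(q.1, q.2) A) o) - ind (reachB B A o) = 1
    rw [ind_false ho]
    have hreach : reachB B (insert s(q.1, q.2) A) o := by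
      obtain ⟨b, hb, hcb⟩ := hyr
      refine ⟨b, hb, ?_⟩
      have c1 : conn (insert s(q.1, q.2) A) o q.1 :=
        conn_mono (Finset.inter_subset_left.trans (Finset.subset_insert _ _)) hc
      have c2 : conn (insert s(q.1, q.2) A) q.1 q.2 :=
        conn_edge (Finset.mem_insert_self _ _) hadj.ne
      have c3 : conn (insert s(q.1, q.2) A) q.2 b := conn_mono (Finset.subset_insert _ _) hcb
      exact conn_trans (conn_trans c1 c2) c3
    rw [ind_true hreach, sub_zero]
  calc ∑ e ∈ T.image m, (1 : ℝ)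
      = ∑ e ∈ T.image m, russoTerm (fun A => ind (reachB B A o)) A e :=
        Finset.sum_congr rfl (fun e he => (h5 e he).2.symm)
    _ ≤ _ := Finset.sum_le_sum_of_subset_of_nonneg (fun e he => (h5 e he).1)
        (fun e _ _ => hterm_nonneg e)

/-- The Duminil-Copin and Tassion inequality. -/
theorem dct_ineq {Λ B : Finset V} {o : V} (hoΛ : o ∈ Λ) (hBΛ : B ⊆ Λ)
    (hΛ : ∀ x ∈ Λ, x ∉ B → ∀ y, G.Adj x y → y ∈ Λ) {p : ℝ} (hp0 : 0 < p) (hp1 : p < 1)
    (hφ : ∀ S, S ⊆ Λ → o ∈ S → 1 ≤ p * ∑ x ∈ S, ((outN G S x).card : ℝ) * tt G o S p x) :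
    1 - Ex p (inE G Λ) (fun A => ind (reachB B A o))
      ≤ p * ((1 - p) * ∑ e ∈ inE G Λ,
        Ex p ((inE G Λ).erase e) (fun A => ind (reachB B (insert e A) o) - ind (reachB B A o))) := by
  obtain ⟨F, hF⟩ : ∃ F, F = inE G Λ := ⟨_, rfl⟩
  rw [← hF]
  have hp0' := hp0.le
  have hp1' := hp1.le
  have hr : (1 - p) * ∑ e ∈ F, Ex p (F.erase e)
        (fun A => ind (reachB B (insert e A) o) - ind (reachB B A o))
      = Ex p F (fun A => ∑ e ∈ F, russoTerm (fun A => ind (reachB B A o)) A e) :=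
    russo_mul (fun A => ind (reachB B A o)) F p
  rw [hr]
  -- the sum over sets `S`
  obtain ⟨Sf, hSf⟩ : ∃ Sf, Sf = Λ.powerset.filter (fun S => o ∈ S) := ⟨_, rfl⟩
  have hpt : ∀ A, A ⊆ F → ∑ S ∈ Sf, ind (SS Λ B A = S) * psi G o S (A ∩ inE G S)
      ≤ ∑ e ∈ F, russoTerm (fun A => ind (reachB B A o)) A e := by
    intro A _
    rw [hF]
    by_cases hreach : reachB B A o
    · have : ∑ S ∈ Sf, ind (SS Λ B A = S) * psi G o S (A ∩ inE G S) = 0 := by
        apply Finset.sum_eq_zero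
        intro S hS
        rw [hSf, Finset.mem_filter] at hS
        have : SS Λ B A ≠ S := by
          rintro rfl
          exact (mem_SS.mp hS.2).2 hreach
        rw [ind_false this, zero_mul]
      rw [this]
      apply Finset.sum_nonneg
      intro e _
      unfold russoTerm
      apply mul_nonneg (ind_nonneg _)
      have : ind (reachB B A o) ≤ ind (reachB B (insert e A) o) :=
        ind_mono (reachB_mono (Finset.subset_insert e A))
      linarith
    · have hmem : SS Λ B A ∈ Sf := by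
        rw [hSf, Finset.mem_filter, Finset.mem_powerset]
        exact ⟨Finset.filter_subset _ _, mem_SS.mpr ⟨hoΛ, hreach⟩⟩
      rw [Finset.sum_eq_single_of_mem _ hmem]
      · rw [ind_true rfl, one_mul]
        exact psi_le_russo G hΛ hreach
      · intro S _ hne
        rw [ind_false hne.symm, zero_mul]
  have hE1 : Ex p F (fun A => ∑ S ∈ Sf, ind (SS Λ B A = S) * psi G o S (A ∩ inE G S))
      ≤ Ex p F (fun A => ∑ e ∈ F, russoTerm (fun A => ind (reachB B A o)) A e) :=
    Ex_mono hp0' hp1' hpt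
  have hE2 : ∀ S ∈ Sf, Ex p F (fun A => ind (SS Λ B A = S)) ≤
      p * Ex p F (fun A => ind (SS Λ B A = S) * psi G o S (A ∩ inE G S)) := by
    intro S hS
    rw [hSf, Finset.mem_filter, Finset.mem_powerset] at hS
    obtain ⟨hSΛ, hoS⟩ := hS
    have hsub : inE G S ⊆ F := by rw [hF]; exact inE_mono G hSΛ
    have hd : Disjoint (inE G S) (F \ inE G S) := Finset.disjoint_sdiff
    have hu : inE G S ∪ (F \ inE G S) = F := Finset.union_sdiff_of_subset hsub
    have hiff : ∀ A, A ⊆ F → ind (SS Λ B A = S) = ind (SS Λ B (A ∩ (F \ inE G S)) = S) := by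
      intro A hA
      rw [hF] at hA ⊢
      by_cases h : SS Λ B A = S
      · rw [ind_true h, ind_true (SS_forward G hBΛ hA h)]
      · rw [ind_false h, ind_false (fun h' => h (SS_backward G hSΛ h' hA))]
    have h1 : Ex p F (fun A => ind (SS Λ B A = S) * psi G o S (A ∩ inE G S))
        = Ex p (inE G S) (psi G o S) * Ex p (F \ inE G S) (fun A => ind (SS Λ B A = S)) := by
      rw [← Ex_union hd, hu]
      apply Ex_congr
      intro A hA
      rw [hiff A hA]
      ring
    have h2 : Ex p (F \ inE G S) (fun A => ind (SS Λ B A = S))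
        = Ex p F (fun A => ind (SS Λ B A = S)) := by
      rw [← Ex_marginal (p := p) (Finset.sdiff_subset : F \ inE G S ⊆ F)]
      apply Ex_congr
      intro A hA
      exact (hiff A hA).symm
    rw [h1, h2, Ex_psi]
    have h3 := hφ S hSΛ hoS
    have h4 : 0 ≤ Ex p F (fun A => ind (SS Λ B A = S)) := Ex_nonneg hp0' hp1' (fun _ _ => ind_nonneg _)
    have h5 := mul_le_mul_of_nonneg_right h3 h4
    linarith
  have hE3 : 1 - Ex p F (fun A => ind (reachB B A o)) = ∑ S ∈ Sf, Ex p F (fun A => ind (SS Λ B A = S)) := by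
    rw [← Ex_sum]
    have : 1 - Ex p F (fun A => ind (reachB B A o)) = Ex p F (fun A => 1 - ind (reachB B A o)) := by
      rw [Ex_sub, Ex_const]
    rw [this]
    apply Ex_congr
    intro A _
    by_cases hreach : reachB B A o
    · rw [ind_true hreach, sub_self]
      symm
      apply Finset.sum_eq_zero
      intro S hS
      rw [hSf, Finset.mem_filter] at hS
      have : SS Λ B A ≠ S := by
        rintro rfl
        exact (mem_SS.mp hS.2).2 hreach
      exact ind_false this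
    · rw [ind_false hreach, sub_zero]
      have hmem : SS Λ B A ∈ Sf := by
        rw [hSf, Finset.mem_filter, Finset.mem_powerset]
        exact ⟨Finset.filter_subset _ _, mem_SS.mpr ⟨hoΛ, hreach⟩⟩
      rw [Finset.sum_eq_single_of_mem _ hmem]
      · exact (ind_true rfl).symm
      · intro S _ hne
        exact ind_false hne.symm
  rw [hE3]
  have hE4 : ∑ S ∈ Sf, Ex p F (fun A => ind (SS Λ B A = S))
      ≤ p * Ex p F (fun A => ∑ S ∈ Sf, ind (SS Λ B A = S) * psi G o S (A ∩ inE G S)) := by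
    rw [Ex_sum, Finset.mul_sum]
    exact Finset.sum_le_sum hE2
  exact hE4.trans (mul_le_mul_of_nonneg_left hE1 hp0')

omit [G.LocallyFinite] in
lemma tt_mono_param {S : Finset V} (o x : V) {p q : ℝ} (h0 : 0 ≤ p) (hpq : p ≤ q) (h1 : q ≤ 1) :
    tt G o S p x ≤ tt G o S q x :=
  Ex_mono_param h0 hpq h1 _ (fun _ _ h => ind_mono (conn_mono h))

/-- Monotonicity in the parameter of the boundary functional. -/
lemma phi_mono {S : Finset V} (o : V) {p q : ℝ} (h0 : 0 ≤ p) (hpq : p ≤ q) (h1 : q ≤ 1) :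
    p * ∑ x ∈ S, ((outN G S x).card : ℝ) * tt G o S p x
      ≤ q * ∑ x ∈ S, ((outN G S x).card : ℝ) * tt G o S q x := by
  have hq0 : 0 ≤ q := h0.trans hpq
  have h2 : ∑ x ∈ S, ((outN G S x).card : ℝ) * tt G o S p x
      ≤ ∑ x ∈ S, ((outN G S x).card : ℝ) * tt G o S q x :=
    Finset.sum_le_sum (fun x _ => mul_le_mul_of_nonneg_left (tt_mono_param G o x h0 hpq h1)
      (Nat.cast_nonneg _))
  have h3 : 0 ≤ ∑ x ∈ S, ((outN G S x).card : ℝ) * tt G o S p x :=
    Finset.sum_nonneg (fun x _ => mul_nonneg (Nat.cast_nonneg _)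
      (tt_nonneg G o h0 (hpq.trans h1) x))
  exact mul_le_mul hpq h2 h3 hq0

/-- The integrated form: a lower bound on the connection probability. -/
theorem theta_lower {Λ B : Finset V} {o : V} (hoΛ : o ∈ Λ) (hBΛ : B ⊆ Λ)
    (hΛ : ∀ x ∈ Λ, x ∉ B → ∀ y, G.Adj x y → y ∈ Λ) {p₀ p : ℝ} (h0 : 0 < p₀) (hp : p₀ < p)
    (h1 : p < 1)
    (hφ : ∀ S, S ⊆ Λ → o ∈ S → 1 ≤ p₀ * ∑ x ∈ S, ((outN G S x).card : ℝ) * tt G o S p₀ x) :
    1 - (p₀ * (1 - p)) / (p * (1 - p₀)) ≤ Ex p (inE G Λ) (fun A => ind (reachB B A o)) := by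
  obtain ⟨F, hF⟩ : ∃ F, F = inE G Λ := ⟨_, rfl⟩
  rw [← hF]
  obtain ⟨f, hf⟩ : ∃ f : Finset (Sym2 V) → ℝ, f = fun A => ind (reachB B A o) := ⟨_, rfl⟩
  rw [← hf]
  obtain ⟨k, hk⟩ : ∃ k : ℝ → ℝ, k = fun q => (1 - Ex q F f) * (q / (1 - q)) := ⟨_, rfl⟩
  obtain ⟨D, hD⟩ : ∃ D : ℝ → ℝ, D = fun q =>
      ∑ e ∈ F, Ex q (F.erase e) (fun A => f (insert e A) - f A) := ⟨_, rfl⟩
  have hder : ∀ q, q < 1 → HasDerivAt k
      ((-(D q)) * (q / (1 - q)) + (1 - Ex q F f) * (1 / (1 - q) ^ 2)) q := by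
    intro q hq
    have hne : 1 - q ≠ 0 := by linarith
    have d1 : HasDerivAt (fun q => 1 - Ex q F f) (-(D q)) q := by
      have h : HasDerivAt (fun q => 1 - Ex q F f) (0 - D q) q := by
        rw [hD]
        exact (hasDerivAt_const q (1 : ℝ)).sub (Ex_hasDerivAt q F f)
      exact h.congr_deriv (by ring)
    have d2 : HasDerivAt (fun q => q / (1 - q)) (1 / (1 - q) ^ 2) q := by
      have h : HasDerivAt (fun q => 1 - q) (0 - 1) q :=
        (hasDerivAt_const q (1 : ℝ)).sub (hasDerivAt_id' q)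
      have h2 : HasDerivAt (fun q => q / (1 - q)) ((1 * (1 - q) - q * (0 - 1)) / (1 - q) ^ 2) q :=
        (hasDerivAt_id' q).div h hne
      refine h2.congr_deriv ?_
      congr 1
      ring
    rw [hk]
    exact d1.mul d2
  have hanti : AntitoneOn k (Set.Icc p₀ p) := by
    apply antitoneOn_of_deriv_nonpos (convex_Icc p₀ p)
    · intro q hq
      exact (hder q (by linarith [hq.2])).continuousAt.continuousWithinAt
    · intro q hq
      rw [interior_Icc] at hq
      exact (hder q (by linarith [hq.2])).differentiableAt.differentiableWithinAt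
    · intro q hq
      rw [interior_Icc] at hq
      have hq1 : q < 1 := by linarith [hq.2]
      have hq0 : 0 < q := by linarith [hq.1]
      rw [(hder q hq1).deriv]
      have hφq : ∀ S, S ⊆ Λ → o ∈ S →
          1 ≤ q * ∑ x ∈ S, ((outN G S x).card : ℝ) * tt G o S q x := fun S hS hoS =>
        (hφ S hS hoS).trans (phi_mono G o h0.le hq.1.le hq1.le)
      have hineq := dct_ineq G hoΛ hBΛ hΛ hq0 hq1 hφq
      rw [← hF] at hineq
      have hineq' : 1 - Ex q F f ≤ q * ((1 - q) * D q) := by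
        rw [hD, hf]
        exact hineq
      have h1q : 0 < 1 - q := by linarith
      have e : (-(D q)) * (q / (1 - q)) + (1 - Ex q F f) * (1 / (1 - q) ^ 2)
          = ((1 - Ex q F f) - q * ((1 - q) * D q)) * (1 / (1 - q) ^ 2) := by
        field_simp
        ring
      rw [e]
      apply mul_nonpos_of_nonpos_of_nonneg (by linarith)
      positivity
  have hp₀1 : p₀ < 1 := hp.trans h1
  have hkk : k p ≤ k p₀ :=
    hanti (Set.left_mem_Icc.mpr hp.le) (Set.right_mem_Icc.mpr hp.le) hp.le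
  have hθ0 : 0 ≤ Ex p₀ F f := by
    rw [hf]
    exact Ex_nonneg h0.le hp₀1.le (fun _ _ => ind_nonneg _)
  have h1p₀ : 0 < 1 - p₀ := by linarith
  have h1p : 0 < 1 - p := by linarith
  have hp0 : 0 < p := h0.trans hp
  have hk0 : k p₀ ≤ p₀ / (1 - p₀) := by
    rw [hk]
    have : 0 ≤ p₀ / (1 - p₀) := by positivity
    simp only
    nlinarith
  have hfin : (1 - Ex p F f) * (p / (1 - p)) ≤ p₀ / (1 - p₀) := by
    have : k p = (1 - Ex p F f) * (p / (1 - p)) := by rw [hk]
    linarith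
  have hdiv : (p₀ * (1 - p)) / (p * (1 - p₀)) = (p₀ / (1 - p₀)) * ((1 - p) / p) := by
    field_simp
  have hr : 0 < (1 - p) / p := by positivity
  have h3 := mul_le_mul_of_nonneg_right hfin hr.le
  have h4 : (1 - Ex p F f) * (p / (1 - p)) * ((1 - p) / p) = 1 - Ex p F f := by
    field_simp
  rw [h4, ← hdiv] at h3
  linarith

end Vale.Agent.Lib.P165
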