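import Mathlib

/-!
Bernoulli bond percolation on an infinite graph: the statement-level definitions.
-/

open MeasureTheory ProbabilityTheory

noncomputable section

namespace Vale.Agent.Lib.P165

variable {V : Type*}

/-- The open subgraph of `G` for the configuration `ω`: the edges of `G` whose coordinate is
`true`. Coordinates at pairs that are not edges of `G` are ignored. -/
def openGraph (G : SimpleGraph V) (ω : Sym2 V → Bool) : SimpleGraph V :=
  SimpleGraph.fromEdgeSet {e | e ∈ G.edgeSet ∧ ω e = true}

/-- The number of infinite connected components of a graph, as an extended natural number. -/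
def infClusters (H : SimpleGraph V) : ℕ∞ :=
  Set.encard {c : H.ConnectedComponent | c.supp.Infinite}

/-- Bernoulli bond percolation: the product measure making each coordinate independently `true`
with probability `p`. -/
def bondMeasure (V : Type*) (p : unitInterval) : Measure (Sym2 V → Bool) :=
  Measure.infinitePi (fun _ => bernoulliMeasure true false p)

/-- The critical probability `p_c`. -/
def pC (G : SimpleGraph V) : ℝ :=
  sInf {x : ℝ | ∃ p : unitInterval, (p : ℝ) = x ∧
    0 < bondMeasure V p {ω | 1 ≤ infClusters (openGraph G ω)}}

/-- The uniqueness threshold `p_u`. -/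
def pU (G : SimpleGraph V) : ℝ :=
  sInf {x : ℝ | ∃ p : unitInterval, (p : ℝ) = x ∧
    bondMeasure V p {ω | infClusters (openGraph G ω) = 1} = 1}

/-- The automorphism group of `G` has finitely many orbits on the vertices. -/
def QuasiTransitive (G : SimpleGraph V) : Prop :=
  ∃ T : Finset V, ∀ v, ∃ t ∈ T, ∃ φ : G ≃g G, φ t = v

/-- The number of walks of length `n` from `x` to `y`. -/
def walkCount (G : SimpleGraph V) (n : ℕ) (x y : V) : ℕ :=
  Set.ncard {π : G.Walk x y | π.length = n}

/-- The edges leaving the vertex set `A`, oriented from `A` to its complement. -/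
def edgeBoundary (G : SimpleGraph V) (A : Set V) : Set (V × V) :=
  {e | G.Adj e.1 e.2 ∧ e.1 ∈ A ∧ e.2 ∉ A}

end Vale.Agent.Lib.P165
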