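import Vale.Agent.Lib.P165.BB
import Vale.Agent.Lib.P165.DCT
import Vale.Agent.Lib.P165.Defs

/-!
Balls and spheres in a connected locally finite graph, and the link between connections
in finite configurations and connections in the open subgraph.
-/

open Finset

noncomputable section

namespace Vale.Agent.Lib.P165

attribute [local instance] Classical.propDecidable

variable {V : Type*} (G : SimpleGraph V) [G.LocallyFinite]

lemma walkCount_eq_wc (n : ℕ) (x y : V) : walkCount G n x y = wc G n x y := by
  unfold walkCount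
  rw [← card_finsetWalkLength, ← SimpleGraph.coe_finsetWalkLength_eq, Set.ncard_coe_finset]

lemma mem_reachF_of_walk {x v : V} (π : G.Walk x v) : v ∈ reachF G π.length x := by
  induction π with
  | nil => simp [reachF]
  | @cons a b c h p ih =>
    rw [SimpleGraph.Walk.length_cons]
    exact Finset.mem_biUnion.mpr ⟨b, (G.mem_neighborFinset a b).mpr h, ih⟩

lemma exists_walk_of_mem_reachF {n : ℕ} {x v : V} (h : v ∈ reachF G n x) :
    ∃ π : G.Walk x v, π.length = n := by
  induction n generalizing x with
  | zero =>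
    simp only [reachF, Finset.mem_singleton] at h
    subst h
    exact ⟨SimpleGraph.Walk.nil, rfl⟩
  | succ n ih =>
    obtain ⟨z, hz, hv⟩ := Finset.mem_biUnion.mp h
    obtain ⟨π, hπ⟩ := ih hv
    exact ⟨SimpleGraph.Walk.cons ((G.mem_neighborFinset x z).mp hz) π, by simp [hπ]⟩

/-- The ball of radius `n` around `x`. -/
def ballF (n : ℕ) (x : V) : Finset V := (Finset.range (n + 1)).biUnion (fun i => reachF G i x)

/-- The sphere of radius `n` around `x`. -/
def sphereF (n : ℕ) (x : V) : Finset V := (ballF G n x).filter (fun v => G.dist x v = n)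

lemma mem_ballF (hc : G.Connected) {n : ℕ} {x v : V} : v ∈ ballF G n x ↔ G.dist x v ≤ n := by
  unfold ballF
  rw [Finset.mem_biUnion]
  constructor
  · rintro ⟨i, hi, hv⟩
    obtain ⟨π, hπ⟩ := exists_walk_of_mem_reachF G hv
    have := SimpleGraph.dist_le π
    have hi' := Finset.mem_range.mp hi
    omega
  · intro h
    obtain ⟨π, hπ⟩ := (hc.preconnected x v).exists_walk_length_eq_dist
    refine ⟨G.dist x v, Finset.mem_range.mpr (by omega), ?_⟩
    rw [← hπ]
    exact mem_reachF_of_walk G π

lemma mem_sphereF (hc : G.Connected) {n : ℕ} {x v : V} : v ∈ sphereF G n x ↔ G.dist x v = n := by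
  unfold sphereF
  rw [Finset.mem_filter, mem_ballF G hc]
  constructor
  · exact fun h => h.2
  · exact fun h => ⟨h.le, h⟩

lemma sphereF_subset (n : ℕ) (x : V) : sphereF G n x ⊆ ballF G n x := Finset.filter_subset _ _

lemma self_mem_ballF (hc : G.Connected) (n : ℕ) (x : V) : x ∈ ballF G n x := by
  rw [mem_ballF G hc]
  simp

lemma ball_closed (hc : G.Connected) (n : ℕ) (x : V) :
    ∀ u ∈ ballF G n x, u ∉ sphereF G n x → ∀ y, G.Adj u y → y ∈ ballF G n x := by
  intro u hu hus y hadj
  rw [mem_ballF G hc] at hu ⊢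
  rw [mem_sphereF G hc] at hus
  have h1 := hc.dist_triangle (u := x) (v := u) (w := y)
  have h2 : G.dist u y = 1 := SimpleGraph.dist_eq_one_iff_adj.mpr hadj
  omega

/-- Restriction of the configuration `ω` to the finite set `F`. -/
def restr (F : Finset (Sym2 V)) (ω : Sym2 V → Bool) : Finset (Sym2 V) :=
  F.filter (fun e => ω e = true)

lemma mem_restr {F : Finset (Sym2 V)} {ω : Sym2 V → Bool} {e : Sym2 V} :
    e ∈ restr F ω ↔ e ∈ F ∧ ω e = true := by
  simp [restr]

omit [G.LocallyFinite] in
lemma openGraph_adj {ω : Sym2 V → Bool} {x y : V} :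
    (openGraph G ω).Adj x y ↔ G.Adj x y ∧ ω s(x, y) = true := by
  unfold openGraph
  rw [SimpleGraph.fromEdgeSet_adj]
  constructor
  · rintro ⟨⟨h1, h2⟩, _⟩
    exact ⟨h1, h2⟩
  · rintro ⟨h1, h2⟩
    exact ⟨⟨h1, h2⟩, h1.ne⟩

/-- Connections in the restriction are connections in the open subgraph. -/
lemma reachable_of_conn {S : Finset V} {ω : Sym2 V → Bool} {x y : V}
    (h : conn (restr (inE G S) ω) x y) : (openGraph G ω).Reachable x y := by
  have hle : HH (restr (inE G S) ω) ≤ openGraph G ω := by
    intro u v huv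
    have h' : s(u, v) ∈ restr (inE G S) ω ∧ u ≠ v := by
      simpa [HH, SimpleGraph.fromEdgeSet_adj] using huv
    obtain ⟨h1, h2⟩ := mem_restr.mp h'.1
    exact (openGraph_adj G).mpr ⟨adj_of_mem_inE G h1, h2⟩
  exact SimpleGraph.Reachable.mono hle h

/-- A path from inside the ball to the outside crosses the sphere inside the ball. -/
lemma exists_sphere_conn (hc : G.Connected) {n : ℕ} {x : V} {ω : Sym2 V → Bool} {u v : V}
    (π : (openGraph G ω).Walk u v) (hu : G.dist x u ≤ n) (hv : n ≤ G.dist x v) :
    ∃ b ∈ sphereF G n x, conn (restr (inE G (ballF G n x)) ω) u b := by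
  induction π with
  | nil =>
    exact ⟨_, (mem_sphereF G hc).mpr (le_antisymm hu hv), conn_refl _ _⟩
  | @cons a b c h p ih =>
    by_cases hn : G.dist x a = n
    · exact ⟨a, (mem_sphereF G hc).mpr hn, conn_refl _ _⟩
    · have hadj := (openGraph_adj G).mp h
      have h1 := hc.dist_triangle (u := x) (v := a) (w := b)
      have h2 : G.dist a b = 1 := SimpleGraph.dist_eq_one_iff_adj.mpr hadj.1
      have hb : G.dist x b ≤ n := by omega
      obtain ⟨b', hb', hcb⟩ := ih hb hv
      refine ⟨b', hb', conn_trans (conn_edge ?_ hadj.1.ne) hcb⟩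
      rw [mem_restr]
      refine ⟨(mk_mem_inE G).mpr ⟨hadj.1, ?_, ?_⟩, hadj.2⟩
      · exact (mem_ballF G hc).mpr hu
      · exact (mem_ballF G hc).mpr hb

/-- The event that `x` is connected to the sphere of radius `n`, inside the ball of radius `n`. -/
def ballEv (n : ℕ) (x : V) : Set (Sym2 V → Bool) :=
  {ω | reachB (sphereF G n x) (restr (inE G (ballF G n x)) ω) x}

lemma ballEv_of_reachable (hc : G.Connected) {n : ℕ} {x v : V} {ω : Sym2 V → Bool}
    (h : (openGraph G ω).Reachable x v) (hv : n ≤ G.dist x v) : ω ∈ ballEv G n x := by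
  obtain ⟨π⟩ := h
  exact exists_sphere_conn G hc π (by simp) hv

lemma reachable_of_ballEv (hc : G.Connected) {n : ℕ} {x : V} {ω : Sym2 V → Bool}
    (h : ω ∈ ballEv G n x) : ∃ b, G.dist x b = n ∧ (openGraph G ω).Reachable x b := by
  obtain ⟨b, hb, hcb⟩ := h
  exact ⟨b, (mem_sphereF G hc).mp hb, reachable_of_conn G hcb⟩

lemma ballEv_anti (hc : G.Connected) (x : V) : Antitone (fun n => ballEv G n x) := by
  apply antitone_nat_of_succ_le
  intro n ω hω
  obtain ⟨b, hb, hr⟩ := reachable_of_ballEv G hc hω
  exact ballEv_of_reachable G hc hr (by omega)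

/-- The vertices connected to `x` in the open subgraph. -/
def clusterOf (ω : Sym2 V → Bool) (x : V) : Set V := {v | (openGraph G ω).Reachable x v}

omit [G.LocallyFinite] in
lemma clusterOf_eq_supp (ω : Sym2 V → Bool) (x : V) :
    clusterOf G ω x = ((openGraph G ω).connectedComponentMk x).supp := by
  ext v
  simp only [clusterOf, Set.mem_setOf_eq, SimpleGraph.ConnectedComponent.mem_supp_iff,
    SimpleGraph.ConnectedComponent.eq]
  exact ⟨fun h => h.symm, fun h => h.symm⟩

/-- The cluster of `x` is infinite iff all the events `ballEv` hold. -/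
lemma infinite_cluster_iff (hc : G.Connected) (ω : Sym2 V → Bool) (x : V) :
    (clusterOf G ω x).Infinite ↔ ω ∈ ⋂ n, ballEv G n x := by
  rw [Set.mem_iInter]
  constructor
  · intro h n
    have hfin : (↑(ballF G n x) : Set V).Finite := Finset.finite_toSet _
    obtain ⟨v, hv, hvn⟩ := h.exists_notMem_finite hfin
    have hd : n ≤ G.dist x v := by
      by_contra hlt
      exact hvn (Finset.mem_coe.mpr ((mem_ballF G hc).mpr (by omega)))
    exact ballEv_of_reachable G hc hv hd
  · intro h
    choose b hb hr using fun n => reachable_of_ballEv G hc (h n)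
    refine Set.infinite_of_injective_forall_mem (f := b) ?_ hr
    intro m n hmn
    rw [← hb m, ← hb n, hmn]

end Vale.Agent.Lib.P165
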