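import Vale.Agent.Lib.P165.Wc

/-!
The Cheeger-Mohar bound: an edge-isoperimetric inequality bounds the number of closed walks.
-/

open Finset

noncomputable section

namespace Vale.Agent.Lib.P165

attribute [local instance] Classical.propDecidable

variable {V : Type*} (G : SimpleGraph V) [G.LocallyFinite]

/-- The adjacency matrix. -/
def aa (x y : V) : ℝ := if G.Adj x y then 1 else 0

omit [G.LocallyFinite] in
lemma aa_symm (x y : V) : aa G x y = aa G y x := by
  unfold aa
  by_cases h : G.Adj x y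
  · simp [h, h.symm]
  · have h' : ¬ G.Adj y x := fun hh => h hh.symm
    simp [h, h']

omit [G.LocallyFinite] in
lemma aa_nonneg (x y : V) : 0 ≤ aa G x y := by
  unfold aa
  split_ifs <;> norm_num

omit [G.LocallyFinite] in
lemma aa_sq (x y : V) : aa G x y * aa G x y = aa G x y := by
  unfold aa
  split_ifs <;> norm_num

lemma sum_aa_of_subset {T : Finset V} {x : V} (h : G.neighborFinset x ⊆ T) (φ : V → ℝ) :
    ∑ y ∈ T, aa G x y * φ y = ∑ y ∈ G.neighborFinset x, φ y := by
  have e : G.neighborFinset x = T.filter (fun y => G.Adj x y) := by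
    ext y
    rw [Finset.mem_filter, SimpleGraph.mem_neighborFinset]
    exact ⟨fun hy => ⟨h ((G.mem_neighborFinset x y).mpr hy), hy⟩, fun hy => hy.2⟩
  rw [e, Finset.sum_filter]
  apply Finset.sum_congr rfl
  intro y _
  unfold aa
  by_cases hxy : G.Adj x y <;> simp [hxy]

lemma sum_aa_of_vanish {T : Finset V} {x : V} (φ : V → ℝ) (h : ∀ y, y ∉ T → φ y = 0) :
    ∑ y ∈ T, aa G x y * φ y = ∑ y ∈ G.neighborFinset x, φ y := by
  have e : ∑ y ∈ T, aa G x y * φ y = ∑ y ∈ T.filter (fun y => G.Adj x y), φ y := by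
    rw [Finset.sum_filter]
    apply Finset.sum_congr rfl
    intro y _
    unfold aa
    by_cases hxy : G.Adj x y <;> simp [hxy]
  rw [e]
  apply Finset.sum_subset
  · intro y hy
    exact (G.mem_neighborFinset x y).mpr (Finset.mem_filter.mp hy).2
  · intro y hy hy'
    apply h
    intro hT
    exact hy' (Finset.mem_filter.mpr ⟨hT, (G.mem_neighborFinset x y).mp hy⟩)

lemma sum_aa_le (T : Finset V) (x : V) : ∑ y ∈ T, aa G x y ≤ (G.degree x : ℝ) := by
  have e : ∑ y ∈ T, aa G x y = ((T.filter (fun y => G.Adj x y)).card : ℝ) := by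
    rw [Finset.card_eq_sum_ones, Finset.sum_filter]
    push_cast
    apply Finset.sum_congr rfl
    intro y _
    unfold aa
    by_cases hxy : G.Adj x y <;> simp [hxy]
  rw [e, ← SimpleGraph.card_neighborFinset_eq_degree]
  have : (T.filter (fun y => G.Adj x y)).card ≤ (G.neighborFinset x).card := by
    apply Finset.card_le_card
    intro y hy
    exact (G.mem_neighborFinset x y).mpr (Finset.mem_filter.mp hy).2
  exact_mod_cast this

/-- The discrete co-area inequality. -/
theorem coarea {h : ℝ}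
    (hh : ∀ A : Finset V, h * (A.card : ℝ) ≤ ∑ x ∈ A, ((G.neighborFinset x \ A).card : ℝ))
    (n : ℕ) : ∀ (S : Finset V) (F : V → ℝ), S.card = n → (∀ x, 0 ≤ F x) →
      (∀ x, x ∉ S → F x = 0) →
      h * ∑ x ∈ S, F x ≤ ∑ x ∈ S, ∑ y ∈ G.neighborFinset x, max (F x - F y) 0 := by
  induction n with
  | zero =>
    intro S F hS _ _
    rw [Finset.card_eq_zero] at hS
    subst hS
    simp
  | succ n ih =>
    intro S F hS hF0 hFS
    have hne : S.Nonempty := by
      rw [← Finset.card_pos]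
      omega
    obtain ⟨x₀, hx₀, hmin⟩ := Finset.exists_min_image S F hne
    obtain ⟨m, hm⟩ : ∃ m, m = F x₀ := ⟨_, rfl⟩
    have hm0 : 0 ≤ m := hm ▸ hF0 x₀
    obtain ⟨F', hF'⟩ : ∃ F' : V → ℝ, F' = fun x => if x ∈ S then F x - m else 0 := ⟨_, rfl⟩
    have F'_mem : ∀ x ∈ S, F' x = F x - m := by
      intro x hx
      simp [hF', hx]
    have F'_not : ∀ x, x ∉ S → F' x = 0 := by
      intro x hx
      simp [hF', hx]
    have F'0 : ∀ x, 0 ≤ F' x := by
      intro x
      by_cases hx : x ∈ S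
      · rw [F'_mem x hx]
        have := hmin x hx
        linarith
      · rw [F'_not x hx]
    have F'x₀ : F' x₀ = 0 := by
      rw [F'_mem x₀ hx₀, hm]
      ring
    have hIH := ih (S.erase x₀) F' (by rw [Finset.card_erase_of_mem hx₀, hS]; rfl) F'0 (by
      intro x hx
      by_cases hxx : x = x₀
      · rw [hxx]
        exact F'x₀
      · apply F'_not
        intro hxS
        exact hx (Finset.mem_erase.mpr ⟨hxx, hxS⟩))
    have e1 : ∑ x ∈ S, F x = ∑ x ∈ S.erase x₀, F' x + m * (S.card : ℝ) := by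
      rw [Finset.sum_erase S F'x₀, Finset.card_eq_sum_ones]
      push_cast
      rw [Finset.mul_sum, ← Finset.sum_add_distrib]
      apply Finset.sum_congr rfl
      intro x hx
      rw [F'_mem x hx]
      ring
    have term : ∀ x ∈ S, ∀ y, max (F x - F y) 0 = max (F' x - F' y) 0 + (if y ∉ S then m else 0) := by
      intro x hx y
      by_cases hy : y ∈ S
      · rw [F'_mem x hx, F'_mem y hy]
        simp only [hy, not_true_eq_false, if_false, add_zero]
        congr 1
        ring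
      · rw [F'_mem x hx, F'_not y hy, hFS y hy]
        simp only [hy, not_false_eq_true, if_true, sub_zero]
        rw [max_eq_left (hF0 x), max_eq_left (by have := hmin x hx; linarith)]
        ring
    have e2 : ∀ x ∈ S, ∑ y ∈ G.neighborFinset x, max (F x - F y) 0
        = ∑ y ∈ G.neighborFinset x, max (F' x - F' y) 0
          + m * ((G.neighborFinset x \ S).card : ℝ) := by
      intro x hx
      rw [Finset.sum_congr rfl (fun y _ => term x hx y), Finset.sum_add_distrib]
      congr 1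
      rw [Finset.sdiff_eq_filter, ← Finset.sum_filter, Finset.sum_const, nsmul_eq_mul]
      ring
    have e3 : ∑ x ∈ S, ∑ y ∈ G.neighborFinset x, max (F' x - F' y) 0
        = ∑ x ∈ S.erase x₀, ∑ y ∈ G.neighborFinset x, max (F' x - F' y) 0 := by
      symm
      apply Finset.sum_erase
      apply Finset.sum_eq_zero
      intro y _
      rw [F'x₀]
      exact max_eq_right (by linarith [F'0 y])
    have e4 : ∑ x ∈ S, ∑ y ∈ G.neighborFinset x, max (F x - F y) 0
        = ∑ x ∈ S.erase x₀, ∑ y ∈ G.neighborFinset x, max (F' x - F' y) 0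
          + m * ∑ x ∈ S, ((G.neighborFinset x \ S).card : ℝ) := by
      rw [Finset.sum_congr rfl e2, Finset.sum_add_distrib, e3, Finset.mul_sum]
    rw [e1, e4, mul_add]
    have h2 := mul_le_mul_of_nonneg_left (hh S) hm0
    nlinarith

omit [G.LocallyFinite] in
/-- Swapping a double sum with the adjacency weight. -/
lemma sum_aa_swap (T : Finset V) (φ : V → V → ℝ) :
    ∑ x ∈ T, ∑ y ∈ T, aa G x y * φ y x = ∑ x ∈ T, ∑ y ∈ T, aa G x y * φ x y := by
  rw [Finset.sum_comm]
  apply Finset.sum_congr rfl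
  intro x _
  apply Finset.sum_congr rfl
  intro y _
  rw [aa_symm]

/-- The co-area inequality, with absolute values, in matrix form. -/
theorem coarea_abs {h : ℝ}
    (hh : ∀ A : Finset V, h * (A.card : ℝ) ≤ ∑ x ∈ A, ((G.neighborFinset x \ A).card : ℝ))
    {S T : Finset V} (hST : S ⊆ T) (hN : ∀ x ∈ S, G.neighborFinset x ⊆ T) (F : V → ℝ)
    (hF0 : ∀ x, 0 ≤ F x) (hFS : ∀ x, x ∉ S → F x = 0) :
    2 * h * ∑ x ∈ S, F x ≤ ∑ x ∈ T, ∑ y ∈ T, aa G x y * |F x - F y| := by
  have h1 : ∑ x ∈ T, ∑ y ∈ T, aa G x y * max (F x - F y) 0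
      = ∑ x ∈ S, ∑ y ∈ G.neighborFinset x, max (F x - F y) 0 := by
    symm
    apply Finset.sum_subset_zero_on_sdiff hST
    · intro x hx
      obtain ⟨hxT, hxS⟩ := Finset.mem_sdiff.mp hx
      apply Finset.sum_eq_zero
      intro y _
      rw [hFS x hxS, max_eq_right (by linarith [hF0 y])]
      ring
    · intro x hx
      exact (sum_aa_of_subset G (hN x hx) _).symm
  have h2 : ∑ x ∈ T, ∑ y ∈ T, aa G x y * max (F y - F x) 0
      = ∑ x ∈ T, ∑ y ∈ T, aa G x y * max (F x - F y) 0 :=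
    sum_aa_swap G T (fun a b => max (F a - F b) 0)
  have h3 : ∑ x ∈ T, ∑ y ∈ T, aa G x y * |F x - F y|
      = ∑ x ∈ T, ∑ y ∈ T, aa G x y * max (F x - F y) 0
        + ∑ x ∈ T, ∑ y ∈ T, aa G x y * max (F y - F x) 0 := by
    rw [← Finset.sum_add_distrib]
    apply Finset.sum_congr rfl
    intro x _
    rw [← Finset.sum_add_distrib]
    apply Finset.sum_congr rfl
    intro y _
    rw [← mul_add, ← max_zero_add_max_neg_zero_eq_abs_self, neg_sub]
  rw [h3, h2, h1]
  have := coarea G hh S.card S F rfl hF0 hFS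
  linarith

/-- The quadratic form `Σ f^2`. -/
def QQ (T : Finset V) (f : V → ℝ) : ℝ := ∑ x ∈ T, f x ^ 2

/-- The adjacency bilinear form. -/
def BB (T : Finset V) (f g : V → ℝ) : ℝ := ∑ x ∈ T, ∑ y ∈ T, aa G x y * (f x * g y)

lemma QQ_nonneg (T : Finset V) (f : V → ℝ) : 0 ≤ QQ T f :=
  Finset.sum_nonneg (fun _ _ => sq_nonneg _)

omit [G.LocallyFinite] in
lemma BB_symm (T : Finset V) (f g : V → ℝ) : BB G T g f = BB G T f g := by
  unfold BB
  have := sum_aa_swap G T (fun a b => g b * f a)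
  refine Eq.trans ?_ (this.trans ?_)
  · apply Finset.sum_congr rfl
    intro x _
    apply Finset.sum_congr rfl
    intro y _
    ring
  · apply Finset.sum_congr rfl
    intro x _
    apply Finset.sum_congr rfl
    intro y _
    ring

/-- The Mohar bound. -/
theorem BB_abs_le {Δ h lam : ℝ} (hΔ : ∀ v, (G.degree v : ℝ) ≤ Δ) (h0 : 0 ≤ h)
    (hh : ∀ A : Finset V, h * (A.card : ℝ) ≤ ∑ x ∈ A, ((G.neighborFinset x \ A).card : ℝ))
    (hlam0 : 0 ≤ lam) (hlam : Δ ^ 2 - h ^ 2 ≤ lam ^ 2)
    {S T : Finset V} (hST : S ⊆ T) (hN : ∀ x ∈ S, G.neighborFinset x ⊆ T) (f : V → ℝ)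
    (hfS : ∀ x, x ∉ S → f x = 0) :
    |BB G T f f| ≤ lam * QQ T f := by
  obtain ⟨Q, hQ⟩ : ∃ Q, Q = QQ T f := ⟨_, rfl⟩
  obtain ⟨B, hB⟩ : ∃ B, B = BB G T f f := ⟨_, rfl⟩
  obtain ⟨D, hD⟩ : ∃ D, D = ∑ x ∈ T, ∑ y ∈ T, aa G x y * f x ^ 2 := ⟨_, rfl⟩
  rw [← hB, ← hQ]
  have hQ0 : 0 ≤ Q := hQ ▸ QQ_nonneg T f
  have hD0 : 0 ≤ D := by
    rw [hD]
    exact Finset.sum_nonneg (fun x _ => Finset.sum_nonneg
      (fun y _ => mul_nonneg (aa_nonneg G x y) (sq_nonneg _)))
  have hDle : D ≤ Δ * Q := by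
    rw [hD, hQ]
    unfold QQ
    rw [Finset.mul_sum]
    apply Finset.sum_le_sum
    intro x _
    rw [← Finset.sum_mul]
    exact mul_le_mul_of_nonneg_right ((sum_aa_le G T x).trans (hΔ x)) (sq_nonneg _)
  have hD' : ∑ x ∈ T, ∑ y ∈ T, aa G x y * f y ^ 2 = D := by
    rw [hD]
    exact sum_aa_swap G T (fun a _ => f a ^ 2)
  have hco := coarea_abs G hh hST hN (fun x => f x ^ 2) (fun x => sq_nonneg _)
    (fun x hx => by simp [hfS x hx])
  have hSQ : ∑ x ∈ S, f x ^ 2 = Q := by
    rw [hQ]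
    unfold QQ
    apply Finset.sum_subset hST
    intro x _ hx
    simp [hfS x hx]
  simp only [hSQ] at hco
  obtain ⟨U, hU⟩ : ∃ U, U = ∑ x ∈ T, ∑ y ∈ T, aa G x y * |f x ^ 2 - f y ^ 2| := ⟨_, rfl⟩
  rw [← hU] at hco
  have hcs : U ^ 2 ≤ (2 * D - 2 * B) * (2 * D + 2 * B) := by
    have e1 : U = ∑ p ∈ T ×ˢ T, (aa G p.1 p.2 * |f p.1 - f p.2|) * (aa G p.1 p.2 * |f p.1 + f p.2|) := by
      rw [hU, Finset.sum_product]
      apply Finset.sum_congr rfl
      intro x _
      apply Finset.sum_congr rfl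
      intro y _
      have e : f x ^ 2 - f y ^ 2 = (f x - f y) * (f x + f y) := by ring
      rw [e, abs_mul]
      calc aa G x y * (|f x - f y| * |f x + f y|)
          = (aa G x y * aa G x y) * (|f x - f y| * |f x + f y|) := by rw [aa_sq]
        _ = _ := by ring
    have e2 : ∑ p ∈ T ×ˢ T, (aa G p.1 p.2 * |f p.1 - f p.2|) ^ 2 = 2 * D - 2 * B := by
      rw [Finset.sum_product]
      have : ∀ x ∈ T, ∀ y ∈ T, (aa G x y * |f x - f y|) ^ 2
          = aa G x y * f x ^ 2 + aa G x y * f y ^ 2 - 2 * (aa G x y * (f x * f y)) := by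
        intro x _ y _
        have : (aa G x y * |f x - f y|) ^ 2 = (aa G x y * aa G x y) * (f x - f y) ^ 2 := by
          rw [mul_pow, sq_abs]
          ring
        rw [this, aa_sq]
        ring
      rw [Finset.sum_congr rfl (fun x hx => Finset.sum_congr rfl (fun y hy => this x hx y hy))]
      simp only [Finset.sum_sub_distrib, Finset.sum_add_distrib, ← Finset.mul_sum]
      rw [hD', ← hD, hB]
      unfold BB
      ring
    have e3 : ∑ p ∈ T ×ˢ T, (aa G p.1 p.2 * |f p.1 + f p.2|) ^ 2 = 2 * D + 2 * B := by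
      rw [Finset.sum_product]
      have : ∀ x ∈ T, ∀ y ∈ T, (aa G x y * |f x + f y|) ^ 2
          = aa G x y * f x ^ 2 + aa G x y * f y ^ 2 + 2 * (aa G x y * (f x * f y)) := by
        intro x _ y _
        have : (aa G x y * |f x + f y|) ^ 2 = (aa G x y * aa G x y) * (f x + f y) ^ 2 := by
          rw [mul_pow, sq_abs]
          ring
        rw [this, aa_sq]
        ring
      rw [Finset.sum_congr rfl (fun x hx => Finset.sum_congr rfl (fun y hy => this x hx y hy))]
      simp only [Finset.sum_add_distrib, ← Finset.mul_sum]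
      rw [hD', ← hD, hB]
      unfold BB
      ring
    rw [e1, ← e2, ← e3]
    exact Finset.sum_mul_sq_le_sq_mul_sq _ _ _
  have h1 : (2 * h * Q) ^ 2 ≤ U ^ 2 :=
    pow_le_pow_left₀ (by positivity) hco 2
  have h2 : D ^ 2 ≤ (Δ * Q) ^ 2 := pow_le_pow_left₀ hD0 hDle 2
  have h3 : B ^ 2 ≤ (lam * Q) ^ 2 := by
    have h4 : (Δ ^ 2 - h ^ 2) * Q ^ 2 ≤ lam ^ 2 * Q ^ 2 :=
      mul_le_mul_of_nonneg_right hlam (sq_nonneg _)
    nlinarith
  have h5 := sq_le_sq.mp h3
  rwa [abs_of_nonneg (mul_nonneg hlam0 hQ0)] at h5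

/-- The operator norm bound. -/
theorem op_bound {Δ h lam : ℝ} (hΔ : ∀ v, (G.degree v : ℝ) ≤ Δ) (h0 : 0 ≤ h)
    (hh : ∀ A : Finset V, h * (A.card : ℝ) ≤ ∑ x ∈ A, ((G.neighborFinset x \ A).card : ℝ))
    (hlam0 : 0 < lam) (hlam : Δ ^ 2 - h ^ 2 ≤ lam ^ 2)
    {S T : Finset V} (hST : S ⊆ T) (hN : ∀ x ∈ S, G.neighborFinset x ⊆ T) (v g : V → ℝ)
    (hvS : ∀ x, x ∉ S → v x = 0) (hgS : ∀ x, x ∉ S → g x = 0)
    (hgv : ∀ y, g y = ∑ z ∈ G.neighborFinset y, v z) :
    QQ T g ≤ lam ^ 2 * QQ T v := by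
  have h1 := BB_abs_le G hΔ h0 hh hlam0.le hlam hST hN (fun x => lam * v x + g x)
    (fun x hx => by simp [hvS x hx, hgS x hx])
  have h2 := BB_abs_le G hΔ h0 hh hlam0.le hlam hST hN (fun x => lam * v x - g x)
    (fun x hx => by simp [hvS x hx, hgS x hx])
  have hvg : BB G T (fun x => lam * v x) g = lam * QQ T g := by
    have e : BB G T (fun x => lam * v x) g = BB G T g (fun x => lam * v x) :=
      (BB_symm G T (fun x => lam * v x) g).symm
    rw [e]
    unfold BB QQ
    rw [Finset.mul_sum]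
    apply Finset.sum_congr rfl
    intro y _
    have e2 : ∑ z ∈ T, aa G y z * (g y * (lam * v z)) = lam * g y * ∑ z ∈ T, aa G y z * v z := by
      rw [Finset.mul_sum]
      apply Finset.sum_congr rfl
      intro z _
      ring
    rw [e2, sum_aa_of_vanish G v (fun z hz => hvS z (fun hzS => hz (hST hzS))), ← hgv]
    ring
  have hdiff : BB G T (fun x => lam * v x + g x) (fun x => lam * v x + g x)
      - BB G T (fun x => lam * v x - g x) (fun x => lam * v x - g x)
      = 4 * BB G T (fun x => lam * v x) g := by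
    have e : BB G T (fun x => lam * v x + g x) (fun x => lam * v x + g x)
        - BB G T (fun x => lam * v x - g x) (fun x => lam * v x - g x)
        = 2 * BB G T (fun x => lam * v x) g + 2 * BB G T g (fun x => lam * v x) := by
      unfold BB
      simp only [Finset.mul_sum]
      rw [← Finset.sum_sub_distrib, ← Finset.sum_add_distrib]
      apply Finset.sum_congr rfl
      intro x _
      rw [← Finset.sum_sub_distrib, ← Finset.sum_add_distrib]
      apply Finset.sum_congr rfl
      intro y _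
      ring
    rw [e, BB_symm]
    ring
  have hQQ : QQ T (fun x => lam * v x + g x) + QQ T (fun x => lam * v x - g x)
      = 2 * (lam ^ 2 * QQ T v) + 2 * QQ T g := by
    unfold QQ
    rw [Finset.mul_sum, Finset.mul_sum, Finset.mul_sum, ← Finset.sum_add_distrib,
      ← Finset.sum_add_distrib]
    apply Finset.sum_congr rfl
    intro x _
    ring
  have h3 := (le_abs_self _).trans h1
  have h4 := (neg_le_abs _).trans h2
  rw [hvg] at hdiff
  have h5 : 4 * (lam * QQ T g) ≤ lam * (2 * (lam ^ 2 * QQ T v) + 2 * QQ T g) := by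
    rw [← hdiff, ← hQQ]
    nlinarith
  have h6 : lam * (2 * QQ T g) ≤ lam * (2 * (lam ^ 2 * QQ T v)) := by
    nlinarith
  have := le_of_mul_le_mul_left h6 hlam0
  linarith

/-- An edge-isoperimetric inequality bounds the closed-walk counts. -/
theorem wc_le_of_cheeger {Δ h lam : ℝ} (hΔ : ∀ v, (G.degree v : ℝ) ≤ Δ) (h0 : 0 ≤ h)
    (hh : ∀ A : Finset V, h * (A.card : ℝ) ≤ ∑ x ∈ A, ((G.neighborFinset x \ A).card : ℝ))
    (hlam0 : 0 < lam) (hlam : Δ ^ 2 - h ^ 2 ≤ lam ^ 2) (x : V) (n : ℕ) :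
    (wc G (2 * n) x x : ℝ) ≤ lam ^ (2 * n) := by
  induction n with
  | zero => simp [wc_zero]
  | succ n ih =>
    obtain ⟨S, hS⟩ : ∃ S, S = reachF G n x ∪ reachF G (n + 1) x := ⟨_, rfl⟩
    obtain ⟨T, hT⟩ : ∃ T, T = S ∪ S.biUnion (fun a => G.neighborFinset a) := ⟨_, rfl⟩
    have hST : S ⊆ T := by
      rw [hT]
      exact Finset.subset_union_left
    have hN : ∀ a ∈ S, G.neighborFinset a ⊆ T := by
      intro a ha b hb
      rw [hT]
      exact Finset.mem_union_right _ (Finset.mem_biUnion.mpr ⟨a, ha, hb⟩)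
    have h1 : reachF G n x ⊆ T := fun z hz => hST (by rw [hS]; exact Finset.mem_union_left _ hz)
    have h2 : reachF G (n + 1) x ⊆ T :=
      fun z hz => hST (by rw [hS]; exact Finset.mem_union_right _ hz)
    have hb := op_bound G hΔ h0 hh hlam0 hlam hST hN (fun y => (wc G n x y : ℝ))
      (fun y => (wc G (n + 1) x y : ℝ))
      (by
        intro y hy
        by_contra hne
        have hne' : wc G n x y ≠ 0 := fun h' => hne (by simp [h'])
        exact hy (by rw [hS]; exact Finset.mem_union_left _ (mem_reachF_of_wc_ne G hne')))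
      (by
        intro y hy
        by_contra hne
        have hne' : wc G (n + 1) x y ≠ 0 := fun h' => hne (by simp [h'])
        exact hy (by rw [hS]; exact Finset.mem_union_right _ (mem_reachF_of_wc_ne G hne')))
      (by
        intro y
        rw [wc_succ_right]
        push_cast
        rfl)
    have e1 : QQ T (fun y => (wc G n x y : ℝ)) = (wc G (n + n) x x : ℝ) := by
      rw [wc_add G h1]
      unfold QQ
      push_cast
      apply Finset.sum_congr rfl
      intro z _
      rw [wc_symm G n z x]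
      ring
    have e2 : QQ T (fun y => (wc G (n + 1) x y : ℝ)) = (wc G ((n + 1) + (n + 1)) x x : ℝ) := by
      rw [wc_add G h2]
      unfold QQ
      push_cast
      apply Finset.sum_congr rfl
      intro z _
      rw [wc_symm G (n + 1) z x]
      ring
    rw [e1, e2] at hb
    have e3 : 2 * (n + 1) = (n + 1) + (n + 1) := by ring
    have e4 : 2 * n = n + n := by ring
    rw [e4] at ih
    rw [e3]
    refine hb.trans ?_
    calc lam ^ 2 * (wc G (n + n) x x : ℝ) ≤ lam ^ 2 * lam ^ (n + n) :=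
          mul_le_mul_of_nonneg_left ih (by positivity)
      _ = lam ^ ((n + 1) + (n + 1)) := by ring

end Vale.Agent.Lib.P165
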