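import Vale.Agent.Lib.P165.Main
import Vale.Agent.Lib.P165.Cheeger

/-!
`p_c < p_u` for regular quasi-transitive graphs with edge expansion at least `224^(1/6) d^(5/6)`.
-/

noncomputable section

namespace Vale.Agent.Lib.P165

attribute [local instance] Classical.propDecidable

variable {V : Type*} (G : SimpleGraph V) [G.LocallyFinite]

lemma ncard_edgeBoundary (A : Finset V) :
    (edgeBoundary G (↑A : Set V)).ncard = ∑ x ∈ A, (G.neighborFinset x \ A).card := by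
  have e : edgeBoundary G (↑A : Set V)
      = ↑(A.biUnion (fun x => (G.neighborFinset x \ A).image (fun y => (x, y)))) := by
    ext ⟨x, y⟩
    simp only [edgeBoundary, Set.mem_ofPred_eq, Finset.mem_coe, Finset.mem_biUnion,
      Finset.mem_image, Finset.mem_sdiff, SimpleGraph.mem_neighborFinset, Prod.mk.injEq]
    constructor
    · rintro ⟨h1, h2, h3⟩
      exact ⟨x, h2, y, ⟨h1, h3⟩, rfl, rfl⟩
    · rintro ⟨a, ha, b, ⟨h1, h2⟩, rfl, rfl⟩
      exact ⟨h1, ha, h2⟩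
  rw [e, Set.ncard_coe_finset, Finset.card_biUnion]
  · apply Finset.sum_congr rfl
    intro x _
    exact Finset.card_image_of_injective _ (fun a b hab => (Prod.mk.inj hab).2)
  · intro a _ b _ hab
    refine Finset.disjoint_left.mpr ?_
    intro p h1 h2
    obtain ⟨u, _, hu⟩ := Finset.mem_image.mp h1
    obtain ⟨v, _, hv⟩ := Finset.mem_image.mp h2
    rw [← hv] at hu
    exact hab (Prod.mk.inj hu).1

theorem cheeger_high_degree [Infinite V] (hc : G.Connected) (hqt : QuasiTransitive G) {d : ℕ}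
    (hd : ∀ v, G.degree v = d) {h : ℝ} (h0 : 0 < h)
    (hh : ∀ A : Finset V, h * (A.card : ℝ) ≤ ∑ x ∈ A, ((G.neighborFinset x \ A).card : ℝ))
    (hcrit : 224 * (d : ℝ) ^ 5 ≤ h ^ 6) :
    pC G ≤ (1 + (h / d) ^ 2 / 6) / d ∧ 1 / ((d : ℝ) * (1 - (h / d) ^ 2 / 2)) ≤ pU G ∧
      pC G < pU G := by
  obtain ⟨o⟩ := hc.nonempty
  have hhd : h ≤ d := by
    have h1 := hh {o}
    have h2 : G.neighborFinset o \ {o} = G.neighborFinset o := by
      ext y
      simp only [Finset.mem_sdiff, Finset.mem_singleton, SimpleGraph.mem_neighborFinset]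
      exact ⟨fun h' => h'.1, fun h' => ⟨h', h'.ne'⟩⟩
    simp only [Finset.card_singleton, Nat.cast_one, mul_one, Finset.sum_singleton, h2,
      SimpleGraph.card_neighborFinset_eq_degree, hd] at h1
    exact h1
  have hdpos : (0 : ℝ) < d := lt_of_lt_of_le h0 hhd
  obtain ⟨η, hη⟩ : ∃ η, η = h / d := ⟨_, rfl⟩
  rw [← hη]
  have hhe : h = d * η := by
    rw [hη]
    field_simp
  have hη0 : 0 < η := by
    rw [hη]
    positivity
  have hη1 : η ≤ 1 := by
    rw [hη, div_le_one hdpos]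
    exact hhd
  have hη2 : η ^ 2 ≤ 1 := pow_le_one₀ hη0.le hη1
  obtain ⟨ρ, hρd⟩ : ∃ ρ, ρ = 1 - η ^ 2 / 2 := ⟨_, rfl⟩
  rw [← hρd]
  have hρ0 : 1 / 2 ≤ ρ := by
    rw [hρd]
    linarith
  have hlam0 : 0 < (d : ℝ) * ρ := mul_pos hdpos (by linarith)
  have hlam : (d : ℝ) ^ 2 - h ^ 2 ≤ ((d : ℝ) * ρ) ^ 2 := by
    rw [hhe, hρd]
    have : 0 ≤ (d : ℝ) ^ 2 * (η ^ 2 * η ^ 2) / 4 := by positivity
    nlinarith
  have hwalk : ∀ x n, (walkCount G (2 * n) x x : ℝ) ≤ ((d : ℝ) * ρ) ^ (2 * n) := by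
    intro x n
    rw [walkCount_eq_wc]
    exact wc_le_of_cheeger G (Δ := d) (fun v => by rw [hd]) h0.le hh hlam0 hlam x n
  have hg : 1 - ρ = η ^ 2 / 2 := by
    rw [hρd]
    ring
  have hcrit' : 28 ≤ (d : ℝ) * (1 - ρ) ^ 3 := by
    rw [hg]
    have e : h ^ 6 = (d : ℝ) ^ 5 * ((d : ℝ) * η ^ 6) := by
      rw [hhe]
      ring
    rw [e] at hcrit
    have h5 : 0 < (d : ℝ) ^ 5 := by positivity
    have h6 : (224 : ℝ) ≤ (d : ℝ) * η ^ 6 := by
      have : (d : ℝ) ^ 5 * 224 ≤ (d : ℝ) ^ 5 * ((d : ℝ) * η ^ 6) := by linarith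
      exact le_of_mul_le_mul_left this h5
    have e2 : (d : ℝ) * (η ^ 2 / 2) ^ 3 = ((d : ℝ) * η ^ 6) / 8 := by ring
    rw [e2]
    linarith
  obtain ⟨h1, h2, h3⟩ := high_degree G hc hqt hd (by linarith) hwalk hcrit'
  refine ⟨?_, h2, h3⟩
  rw [hg] at h1
  have e : (1 + η ^ 2 / 2 / 3) / (d : ℝ) = (1 + η ^ 2 / 6) / d := by ring
  rwa [e] at h1

end Vale.Agent.Lib.P165
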