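import Vale.Agent.Lib.P165.Ex

/-!
Connectivity in finite edge configurations, and the edges of a graph inside a vertex set.
-/

open Finset

noncomputable section

namespace Vale.Agent.Lib.P165

attribute [local instance] Classical.propDecidable

variable {V : Type*}

/-- The graph with edge set `A`. -/
def HH (A : Finset (Sym2 V)) : SimpleGraph V := SimpleGraph.fromEdgeSet (A : Set (Sym2 V))

/-- Connection in the configuration `A`. -/
def conn (A : Finset (Sym2 V)) (x y : V) : Prop := (HH A).Reachable x y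

lemma conn_refl (A : Finset (Sym2 V)) (x : V) : conn A x x := SimpleGraph.Reachable.refl x

lemma conn_symm {A : Finset (Sym2 V)} {x y : V} (h : conn A x y) : conn A y x :=
  SimpleGraph.Reachable.symm h

lemma conn_trans {A : Finset (Sym2 V)} {x y z : V} (h : conn A x y) (h' : conn A y z) :
    conn A x z := SimpleGraph.Reachable.trans h h'

lemma HH_mono {A B : Finset (Sym2 V)} (h : A ⊆ B) : HH A ≤ HH B :=
  SimpleGraph.fromEdgeSet_mono (Finset.coe_subset.mpr h)

lemma conn_mono {A B : Finset (Sym2 V)} (h : A ⊆ B) {x y : V} (hc : conn A x y) : conn B x y :=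
  SimpleGraph.Reachable.mono (HH_mono h) hc

lemma conn_edge {A : Finset (Sym2 V)} {x y : V} (h : s(x, y) ∈ A) (hne : x ≠ y) : conn A x y := by
  apply SimpleGraph.Adj.reachable
  simp [HH, SimpleGraph.fromEdgeSet_adj, h, hne]

/-- Closure principle for connected clusters. -/
lemma conn_closure {A : Finset (Sym2 V)} (C : Set V)
    (hcl : ∀ u ∈ C, ∀ v, s(u, v) ∈ A → u ≠ v → v ∈ C) {o v : V} (ho : o ∈ C)
    (h : conn A o v) : v ∈ C := by
  obtain ⟨w⟩ := h
  induction w with
  | nil => exact ho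
  | @cons a b c hadj p ih =>
    have hadj' : s(a, b) ∈ A ∧ a ≠ b := by
      simpa [HH, SimpleGraph.fromEdgeSet_adj] using hadj
    exact ih (hcl _ ho _ hadj'.1 hadj'.2)

/-- A walk whose edges all lie in `A` witnesses a connection in `A`. -/
lemma conn_of_walk {H : SimpleGraph V} {A : Finset (Sym2 V)} {x y : V} (π : H.Walk x y)
    (h : ∀ e ∈ π.edges, e ∈ A) : conn A x y := by
  induction π with
  | nil => exact conn_refl A _
  | cons hadj p ih =>
    refine conn_trans (conn_edge (h _ ?_) hadj.ne) (ih fun e he => h e ?_)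
    · simp
    · simp [he]

/-- Every edge of a walk in `HH A` lies in `A`. -/
lemma edges_subset_of_HH {A : Finset (Sym2 V)} {x y : V} (π : (HH A).Walk x y) :
    ∀ e ∈ π.edges, e ∈ A := by
  intro e he
  have := π.edges_subset_edgeSet he
  simp only [HH, SimpleGraph.edgeSet_fromEdgeSet] at this
  simpa using this.1

variable (G : SimpleGraph V)

/-- The edges of `G` with both endpoints in `S`. -/
def inE (S : Finset V) : Finset (Sym2 V) :=
  ((S ×ˢ S).filter (fun q => G.Adj q.1 q.2)).image (fun q => s(q.1, q.2))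

lemma mk_mem_inE {S : Finset V} {x y : V} : s(x, y) ∈ inE G S ↔ G.Adj x y ∧ x ∈ S ∧ y ∈ S := by
  unfold inE
  simp only [Finset.mem_image, Finset.mem_filter, Finset.mem_product, Prod.exists]
  constructor
  · rintro ⟨a, b, ⟨⟨ha, hb⟩, hab⟩, h⟩
    rcases Sym2.eq_iff.mp h with ⟨rfl, rfl⟩ | ⟨rfl, rfl⟩
    · exact ⟨hab, ha, hb⟩
    · exact ⟨hab.symm, hb, ha⟩
  · rintro ⟨h, hx, hy⟩
    exact ⟨x, y, ⟨⟨hx, hy⟩, h⟩, rfl⟩

lemma inE_mono {S T : Finset V} (h : S ⊆ T) : inE G S ⊆ inE G T := by
  intro e he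
  induction e using Sym2.ind with
  | _ x y =>
    rw [mk_mem_inE] at he ⊢
    exact ⟨he.1, h he.2.1, h he.2.2⟩

lemma adj_of_mem_inE {S : Finset V} {x y : V} (h : s(x, y) ∈ inE G S) : G.Adj x y :=
  ((mk_mem_inE G).mp h).1

lemma mem_edgeSet_of_mem_inE {S : Finset V} {e : Sym2 V} (h : e ∈ inE G S) : e ∈ G.edgeSet := by
  induction e using Sym2.ind with
  | _ x y => exact adj_of_mem_inE G h

/-- A cluster in a configuration inside `S` stays in `S`. -/
lemma conn_mem_of_subset {S : Finset V} {A : Finset (Sym2 V)} (hA : A ⊆ inE G S) {o v : V}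
    (ho : o ∈ S) (h : conn A o v) : v ∈ S := by
  have := conn_closure (A := A) (↑S : Set V) (fun u _ w hw _ => ?_) (Finset.mem_coe.mpr ho) h
  · exact Finset.mem_coe.mp this
  · have := (mk_mem_inE G).mp (hA hw)
    exact Finset.mem_coe.mpr this.2.2

section Nb

variable [G.LocallyFinite]

/-- Neighbours of `x` in `S`. -/
def nb (S : Finset V) (x : V) : Finset V := (G.neighborFinset x).filter (· ∈ S)

/-- Neighbours of `x` outside `S`. -/
def outN (S : Finset V) (x : V) : Finset V := (G.neighborFinset x).filter (· ∉ S)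

lemma mem_nb {S : Finset V} {x y : V} : y ∈ nb G S x ↔ G.Adj x y ∧ y ∈ S := by
  simp [nb]

lemma mem_outN {S : Finset V} {x y : V} : y ∈ outN G S x ↔ G.Adj x y ∧ y ∉ S := by
  simp [outN]

lemma card_nb_add_outN (S : Finset V) (x : V) :
    (nb G S x).card + (outN G S x).card = G.degree x := by
  unfold nb outN
  rw [Finset.card_filter_add_card_filter_not]
  simp

lemma sum_nb_swap (S : Finset V) (g : V → V → ℝ) :
    ∑ x ∈ S, ∑ y ∈ nb G S x, g x y = ∑ y ∈ S, ∑ x ∈ nb G S y, g x y := by
  apply Finset.sum_comm'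
  intro x y
  simp only [mem_nb]
  constructor
  · rintro ⟨hx, h, hy⟩
    exact ⟨⟨h.symm, hx⟩, hy⟩
  · rintro ⟨⟨h, hx⟩, hy⟩
    exact ⟨hx, h.symm, hy⟩

end Nb

end Vale.Agent.Lib.P165
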