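import Mathlib

/-!
Finite Bernoulli expectations on subsets of a finite edge set.
-/

open Finset

noncomputable section

namespace Vale.Agent.Lib.P165

variable {E : Type*}

open Classical in
/-- Bernoulli weight of the configuration `A` on the finite set `F`. -/
def wt (p : ℝ) (F A : Finset E) : ℝ := ∏ e ∈ F, if e ∈ A then p else 1 - p

/-- Expectation over Bernoulli configurations `A ⊆ F`. -/
def Ex (p : ℝ) (F : Finset E) (f : Finset E → ℝ) : ℝ := ∑ A ∈ F.powerset, wt p F A * f A

open Classical in
/-- Indicator of a proposition as a real number. -/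
def ind (P : Prop) : ℝ := if P then 1 else 0

lemma ind_nonneg (P : Prop) : 0 ≤ ind P := by
  unfold ind; split_ifs <;> norm_num

lemma ind_le_one (P : Prop) : ind P ≤ 1 := by
  unfold ind; split_ifs <;> norm_num

@[simp] lemma ind_true {P : Prop} (h : P) : ind P = 1 := by simp [ind, h]

@[simp] lemma ind_false {P : Prop} (h : ¬ P) : ind P = 0 := by simp [ind, h]

lemma ind_mono {P Q : Prop} (h : P → Q) : ind P ≤ ind Q := by
  by_cases hP : P
  · rw [ind_true hP, ind_true (h hP)]
  · rw [ind_false hP]; exact ind_nonneg Q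

variable [DecidableEq E]

set_option linter.unusedSectionVars false

lemma wt_nonneg {p : ℝ} (h0 : 0 ≤ p) (h1 : p ≤ 1) (F A : Finset E) : 0 ≤ wt p F A := by
  unfold wt
  apply Finset.prod_nonneg
  intro e _
  split_ifs <;> linarith

@[simp] lemma Ex_empty (p : ℝ) (f : Finset E → ℝ) : Ex p ∅ f = f ∅ := by
  simp [Ex, wt]

lemma wt_insert_of_notMem {p : ℝ} {a : E} {F A : Finset E} (ha : a ∉ F) (hA : A ⊆ F) :
    wt p (insert a F) A = (1 - p) * wt p F A := by
  unfold wt
  rw [Finset.prod_insert ha]
  have : a ∉ A := fun h => ha (hA h)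
  simp [this]

lemma wt_insert_insert {p : ℝ} {a : E} {F A : Finset E} (ha : a ∉ F) :
    wt p (insert a F) (insert a A) = p * wt p F A := by
  unfold wt
  rw [Finset.prod_insert ha]
  simp only [Finset.mem_insert, true_or, if_true]
  congr 1
  apply Finset.prod_congr rfl
  intro e he
  have : e ≠ a := fun h => ha (h ▸ he)
  simp [this]

/-- The basic recursion for `Ex`. -/
lemma Ex_insert {p : ℝ} {a : E} {F : Finset E} (ha : a ∉ F) (f : Finset E → ℝ) :
    Ex p (insert a F) f = p * Ex p F (fun A => f (insert a A)) + (1 - p) * Ex p F f := by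
  unfold Ex
  rw [Finset.sum_powerset_insert ha, add_comm, Finset.mul_sum, Finset.mul_sum]
  congr 1
  · apply Finset.sum_congr rfl
    intro A _
    rw [wt_insert_insert ha]; ring
  · apply Finset.sum_congr rfl
    intro A hA
    rw [wt_insert_of_notMem ha (Finset.mem_powerset.mp hA)]; ring

lemma Ex_congr {p : ℝ} {F : Finset E} {f g : Finset E → ℝ} (h : ∀ A, A ⊆ F → f A = g A) :
    Ex p F f = Ex p F g := by
  unfold Ex
  apply Finset.sum_congr rfl
  intro A hA
  rw [h A (Finset.mem_powerset.mp hA)]

lemma Ex_mono {p : ℝ} (h0 : 0 ≤ p) (h1 : p ≤ 1) {F : Finset E} {f g : Finset E → ℝ}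
    (h : ∀ A, A ⊆ F → f A ≤ g A) : Ex p F f ≤ Ex p F g := by
  unfold Ex
  apply Finset.sum_le_sum
  intro A hA
  exact mul_le_mul_of_nonneg_left (h A (Finset.mem_powerset.mp hA)) (wt_nonneg h0 h1 F A)

lemma Ex_add (p : ℝ) (F : Finset E) (f g : Finset E → ℝ) :
    Ex p F (fun A => f A + g A) = Ex p F f + Ex p F g := by
  unfold Ex
  rw [← Finset.sum_add_distrib]
  apply Finset.sum_congr rfl
  intro A _
  ring

lemma Ex_sub (p : ℝ) (F : Finset E) (f g : Finset E → ℝ) :
    Ex p F (fun A => f A - g A) = Ex p F f - Ex p F g := by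
  unfold Ex
  rw [← Finset.sum_sub_distrib]
  apply Finset.sum_congr rfl
  intro A _
  ring

lemma Ex_const_mul (p c : ℝ) (F : Finset E) (f : Finset E → ℝ) :
    Ex p F (fun A => c * f A) = c * Ex p F f := by
  unfold Ex
  rw [Finset.mul_sum]
  apply Finset.sum_congr rfl
  intro A _
  ring

lemma Ex_mul_const (p c : ℝ) (F : Finset E) (f : Finset E → ℝ) :
    Ex p F (fun A => f A * c) = Ex p F f * c := by
  unfold Ex
  rw [Finset.sum_mul]
  apply Finset.sum_congr rfl
  intro A _
  ring

lemma Ex_sum {ι : Type*} (p : ℝ) (F : Finset E) (s : Finset ι) (f : ι → Finset E → ℝ) :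
    Ex p F (fun A => ∑ i ∈ s, f i A) = ∑ i ∈ s, Ex p F (f i) := by
  unfold Ex
  simp_rw [Finset.mul_sum]
  rw [Finset.sum_comm]

lemma Ex_const (p c : ℝ) (F : Finset E) : Ex p F (fun _ => c) = c := by
  induction F using Finset.induction_on with
  | empty => simp
  | insert a s ha ih =>
    rw [Ex_insert ha]
    simp only [ih]
    ring

lemma Ex_nonneg {p : ℝ} (h0 : 0 ≤ p) (h1 : p ≤ 1) {F : Finset E} {f : Finset E → ℝ}
    (h : ∀ A, A ⊆ F → 0 ≤ f A) : 0 ≤ Ex p F f := by
  have := Ex_mono h0 h1 (F := F) (f := fun _ => 0) (g := f) h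
  rwa [Ex_const] at this

/-- Independence: a function of `A ∩ F₁` times a function of `A ∩ F₂`, for disjoint `F₁`, `F₂`. -/
lemma Ex_union {p : ℝ} {F₁ F₂ : Finset E} (hd : Disjoint F₁ F₂) (f g : Finset E → ℝ) :
    Ex p (F₁ ∪ F₂) (fun A => f (A ∩ F₁) * g (A ∩ F₂)) = Ex p F₁ f * Ex p F₂ g := by
  induction F₁ using Finset.induction_on generalizing f with
  | empty =>
    simp only [Finset.empty_union, Finset.inter_empty, Ex_empty]
    rw [Ex_const_mul]
    congr 1
    apply Ex_congr
    intro A hA
    rw [Finset.inter_eq_left.mpr hA]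
  | insert a s ha ih =>
    have hs : Disjoint s F₂ := by
      rw [Finset.disjoint_left] at hd ⊢
      intro x hx
      exact hd (Finset.mem_insert_of_mem hx)
    have haF : a ∉ F₂ := by
      rw [Finset.disjoint_left] at hd
      exact hd (Finset.mem_insert_self a s)
    have hau : a ∉ s ∪ F₂ := by
      simp [ha, haF]
    rw [Finset.insert_union, Ex_insert hau, Ex_insert ha]
    have e1 : Ex p (s ∪ F₂) (fun A => (fun A => f (A ∩ insert a s) * g (A ∩ F₂)) (insert a A))
        = Ex p (s ∪ F₂) (fun A => (fun B => f (insert a B)) (A ∩ s) * g (A ∩ F₂)) := by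
      apply Ex_congr
      intro A hA
      have h1 : insert a A ∩ insert a s = insert a (A ∩ s) := by
        ext x
        simp only [Finset.mem_inter, Finset.mem_insert]
        tauto
      have h2 : insert a A ∩ F₂ = A ∩ F₂ := by
        ext x
        simp only [Finset.mem_inter, Finset.mem_insert]
        constructor
        · rintro ⟨h | h, h'⟩
          · exact absurd (h ▸ h') haF
          · exact ⟨h, h'⟩
        · rintro ⟨h, h'⟩
          exact ⟨Or.inr h, h'⟩
      simp only [h1, h2]
    have e2 : Ex p (s ∪ F₂) (fun A => f (A ∩ insert a s) * g (A ∩ F₂))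
        = Ex p (s ∪ F₂) (fun A => f (A ∩ s) * g (A ∩ F₂)) := by
      apply Ex_congr
      intro A hA
      have haA : a ∉ A := fun h => hau (hA h)
      have h1 : A ∩ insert a s = A ∩ s := by
        ext x
        simp only [Finset.mem_inter, Finset.mem_insert]
        constructor
        · rintro ⟨h, h' | h'⟩
          · exact absurd (h' ▸ h) haA
          · exact ⟨h, h'⟩
        · rintro ⟨h, h'⟩
          exact ⟨h, Or.inr h'⟩
      simp only [h1]
    rw [e1, e2, ih hs (fun B => f (insert a B)), ih hs f]
    ring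

/-- Marginalisation. -/
lemma Ex_marginal {p : ℝ} {F F₁ : Finset E} (h : F₁ ⊆ F) (f : Finset E → ℝ) :
    Ex p F (fun A => f (A ∩ F₁)) = Ex p F₁ f := by
  have hd : Disjoint F₁ (F \ F₁) := Finset.disjoint_sdiff
  have hu : F₁ ∪ (F \ F₁) = F := Finset.union_sdiff_of_subset h
  have := Ex_union (p := p) hd f (fun _ => 1)
  rw [hu] at this
  simp only [mul_one] at this
  rw [this, Ex_const, mul_one]

/-- Expectation of the event that all of `F` is open. -/
lemma Ex_eq_self (p : ℝ) (F : Finset E) :
    Ex p F (fun A => ind (A = F)) = p ^ F.card := by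
  unfold Ex
  rw [Finset.sum_eq_single F]
  · show wt p F F * ind (F = F) = p ^ F.card
    rw [ind_true rfl, mul_one]
    unfold wt
    rw [Finset.prod_congr rfl (g := fun _ => p)]
    · simp
    · intro e he
      simp [he]
  · intro B _ hB
    show wt p F B * ind (B = F) = 0
    rw [ind_false hB, mul_zero]
  · intro h
    exact absurd (Finset.mem_powerset.mpr (Finset.Subset.refl F)) h

/-- Harris inequality. -/
lemma Ex_harris {p : ℝ} (h0 : 0 ≤ p) (h1 : p ≤ 1) (F : Finset E) {f g : Finset E → ℝ}
    (hf : ∀ A B, A ⊆ B → f A ≤ f B) (hg : ∀ A B, A ⊆ B → g A ≤ g B) :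
    Ex p F f * Ex p F g ≤ Ex p F (fun A => f A * g A) := by
  induction F using Finset.induction_on generalizing f g with
  | empty => simp
  | insert a s ha ih =>
    rw [Ex_insert ha, Ex_insert ha, Ex_insert ha]
    have hf' : ∀ A B, A ⊆ B → (fun A => f (insert a A)) A ≤ (fun A => f (insert a A)) B :=
      fun A B h => hf _ _ (Finset.insert_subset_insert a h)
    have hg' : ∀ A B, A ⊆ B → (fun A => g (insert a A)) A ≤ (fun A => g (insert a A)) B :=
      fun A B h => hg _ _ (Finset.insert_subset_insert a h)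
    have i1 := ih (f := fun A => f (insert a A)) (g := fun A => g (insert a A)) hf' hg'
    have i0 := ih (f := f) (g := g) hf hg
    have df : Ex p s f ≤ Ex p s (fun A => f (insert a A)) :=
      Ex_mono h0 h1 (fun A _ => hf _ _ (Finset.subset_insert a A))
    have dg : Ex p s g ≤ Ex p s (fun A => g (insert a A)) :=
      Ex_mono h0 h1 (fun A _ => hg _ _ (Finset.subset_insert a A))
    set a1 := Ex p s (fun A => f (insert a A))
    set a0 := Ex p s f
    set b1 := Ex p s (fun A => g (insert a A))
    set b0 := Ex p s g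
    have key : 0 ≤ p * (1 - p) * ((a1 - a0) * (b1 - b0)) :=
      mul_nonneg (mul_nonneg h0 (by linarith)) (mul_nonneg (by linarith) (by linarith))
    have h2 : p * (a1 * b1) ≤ p * Ex p s (fun A => f (insert a A) * g (insert a A)) :=
      mul_le_mul_of_nonneg_left i1 h0
    have h3 : (1 - p) * (a0 * b0) ≤ (1 - p) * Ex p s (fun A => f A * g A) :=
      mul_le_mul_of_nonneg_left i0 (by linarith)
    nlinarith

/-- Monotonicity in the parameter for increasing functions. -/
lemma Ex_mono_param {p q : ℝ} (h0 : 0 ≤ p) (hpq : p ≤ q) (h1 : q ≤ 1) (F : Finset E)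
    {f : Finset E → ℝ} (hf : ∀ A B, A ⊆ B → f A ≤ f B) : Ex p F f ≤ Ex q F f := by
  induction F using Finset.induction_on generalizing f with
  | empty => simp
  | insert a s ha ih =>
    rw [Ex_insert ha, Ex_insert ha]
    have hf' : ∀ A B, A ⊆ B → (fun A => f (insert a A)) A ≤ (fun A => f (insert a A)) B :=
      fun A B h => hf _ _ (Finset.insert_subset_insert a h)
    have i1 := ih (f := fun A => f (insert a A)) hf'
    have i0 := ih (f := f) hf
    have hq0 : 0 ≤ q := le_trans h0 hpq
    have d : Ex p s f ≤ Ex p s (fun A => f (insert a A)) :=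
      Ex_mono h0 (le_trans hpq h1) (fun A _ => hf _ _ (Finset.subset_insert a A))
    have h2 : q * Ex p s (fun A => f (insert a A)) ≤ q * Ex q s (fun A => f (insert a A)) :=
      mul_le_mul_of_nonneg_left i1 hq0
    have h3 : (1 - q) * Ex p s f ≤ (1 - q) * Ex q s f :=
      mul_le_mul_of_nonneg_left i0 (by linarith)
    nlinarith

/-- Derivative of `Ex` in the parameter (Russo's formula). -/
lemma Ex_hasDerivAt (p : ℝ) (F : Finset E) (f : Finset E → ℝ) :
    HasDerivAt (fun q => Ex q F f)
      (∑ e ∈ F, Ex p (F.erase e) (fun A => f (insert e A) - f A)) p := by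
  induction F using Finset.induction_on generalizing f with
  | empty =>
    simp only [Ex_empty, Finset.sum_empty]
    exact hasDerivAt_const p _
  | insert a s ha ih =>
    have hfun : (fun q => Ex q (insert a s) f)
        = fun q => q * Ex q s (fun A => f (insert a A)) + (1 - q) * Ex q s f := by
      funext q
      exact Ex_insert ha f
    rw [hfun]
    have d1 : HasDerivAt (fun q => q * Ex q s (fun A => f (insert a A)))
        (1 * Ex p s (fun A => f (insert a A))
          + p * ∑ e ∈ s, Ex p (s.erase e) (fun A => f (insert a (insert e A)) - f (insert a A))) p :=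
      (hasDerivAt_id' p).mul (ih (fun A => f (insert a A)))
    have d2 : HasDerivAt (fun q => (1 - q) * Ex q s f)
        ((0 - 1) * Ex p s f
          + (1 - p) * ∑ e ∈ s, Ex p (s.erase e) (fun A => f (insert e A) - f A)) p :=
      ((hasDerivAt_const p (1 : ℝ)).sub (hasDerivAt_id' p)).mul (ih f)
    refine (d1.add d2).congr_deriv ?_
    rw [Finset.sum_insert ha, Finset.erase_insert ha]
    have e1 : ∀ e ∈ s, Ex p ((insert a s).erase e) (fun A => f (insert e A) - f A)
        = p * Ex p (s.erase e) (fun A => f (insert a (insert e A)) - f (insert a A))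
          + (1 - p) * Ex p (s.erase e) (fun A => f (insert e A) - f A) := by
      intro e he
      have hne : a ≠ e := fun h => ha (h ▸ he)
      rw [Finset.erase_insert_of_ne hne]
      have hae : a ∉ s.erase e := fun h => ha (Finset.mem_of_mem_erase h)
      rw [Ex_insert hae]
      congr 2
      apply Ex_congr
      intro A _
      rw [Finset.insert_comm]
    rw [Finset.sum_congr rfl e1, Finset.sum_add_distrib, ← Finset.mul_sum, ← Finset.mul_sum,
      Ex_sub]
    ring

end Vale.Agent.Lib.P165
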