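import Vale.Agent.Lib.P165.PuBound

/-!
Non-uniqueness below `1/r` on quasi-transitive graphs, and the criterion `p_c < p_u`.
-/

open MeasureTheory ProbabilityTheory Filter Topology

noncomputable section

namespace Vale.Agent.Lib.P165

attribute [local instance] Classical.propDecidable

variable {V : Type*} (G : SimpleGraph V) [G.LocallyFinite]

/-- If trails of length `n` number at most `C r^n` and `p r < 1` then a.s. uniqueness fails. -/
theorem meas_unique_ne_one [Infinite V] (hc : G.Connected) (hqt : QuasiTransitive G) {C r : ℝ}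
    (hC0 : 0 ≤ C) (hr0 : 0 ≤ r)
    (hT : ∀ n x y, ((trailsF G n x y).card : ℝ) ≤ C * r ^ n) (p : unitInterval)
    (hκ : (p : ℝ) * r < 1) :
    bondMeasure V p {ω | infClusters (openGraph G ω) = 1} ≠ 1 := by
  intro hU
  have := countable_of_connected G hc
  obtain ⟨U, hUd⟩ : ∃ U : Set (Sym2 V → Bool), U = {ω | infClusters (openGraph G ω) = 1} :=
    ⟨_, rfl⟩
  rw [← hUd] at hU
  have hsupp : ∀ (ω : Sym2 V → Bool) (x : V), ω ∈ infEv G x →
      ((openGraph G ω).connectedComponentMk x).supp.Infinite := by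
    intro ω x h
    rw [← clusterOf_eq_supp]
    exact (infinite_cluster_iff G hc ω x).mpr h
  have hcover : U ⊆ ⋃ x, infEv G x := by
    intro ω hω
    rw [hUd] at hω
    have h1 : infClusters (openGraph G ω) = 1 := hω
    unfold infClusters at h1
    obtain ⟨c, hc'⟩ := Set.encard_eq_one.mp h1
    have hmem : c ∈ {c : (openGraph G ω).ConnectedComponent | c.supp.Infinite} := by
      rw [hc']
      rfl
    obtain ⟨x, rfl⟩ := c.exists_rep
    refine Set.mem_iUnion.mpr ⟨x, ?_⟩
    have h2 : (clusterOf G ω x).Infinite := by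
      rw [clusterOf_eq_supp]
      exact hmem
    exact (infinite_cluster_iff G hc ω x).mp h2
  obtain ⟨x, hx⟩ : ∃ x, 0 < bondMeasure V p (infEv G x) := by
    by_contra hcon
    push Not at hcon
    have h0 : bondMeasure V p (⋃ x, infEv G x) = 0 :=
      measure_iUnion_null (fun x => le_antisymm (hcon x) bot_le)
    have := measure_mono (μ := bondMeasure V p) hcover
    rw [hU, h0] at this
    simp at this
  obtain ⟨κ, hκd⟩ : ∃ κ, κ = (p : ℝ) * r := ⟨_, rfl⟩
  have hκ0 : 0 ≤ κ := by rw [hκd]; exact mul_nonneg p.2.1 hr0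
  have hκ1 : κ < 1 := by rw [hκd]; exact hκ
  obtain ⟨a, ha⟩ : ∃ a, a = (bondMeasure V p (infEv G x)).toReal := ⟨_, rfl⟩
  have ha' : bondMeasure V p (infEv G x) = ENNReal.ofReal a := by
    rw [ha, ENNReal.ofReal_toReal (measure_ne_top _ _)]
  have ha0 : 0 < a := by
    rw [ha]
    exact ENNReal.toReal_pos hx.ne' (measure_ne_top _ _)
  have h1κ : 0 < 1 - κ := by linarith
  obtain ⟨D, hD⟩ := exists_pow_lt_of_lt_one
    (show 0 < a * a * (1 - κ) / (C + 1) by positivity) hκ1
  have hsmall : C * κ ^ D / (1 - κ) < a * a := by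
    rw [div_lt_iff₀ h1κ]
    rw [lt_div_iff₀ (by linarith)] at hD
    have hκD : 0 ≤ κ ^ D := pow_nonneg hκ0 _
    nlinarith
  obtain ⟨φ, hφ⟩ := orbit_far G hc hqt x D
  obtain ⟨y, hy⟩ : ∃ y, y = φ x := ⟨_, rfl⟩
  rw [← hy] at hφ
  have hay : bondMeasure V p (infEv G y) = ENNReal.ofReal a := by
    rw [hy, meas_infEv_iso G hc, ha']
  have hX : ENNReal.ofReal (a * a) ≤ bondMeasure V p (infEv G x ∩ infEv G y) := by
    rw [ENNReal.ofReal_mul ha0.le, ← ha']
    nth_rewrite 2 [ha']
    rw [← hay]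
    exact meas_infEv_harris G hc p x y
  have hsub : U ⊆ (infEv G x ∩ infEv G y)ᶜ ∪ {ω | (openGraph G ω).Reachable x y} := by
    intro ω hω
    by_cases hin : ω ∈ infEv G x ∩ infEv G y
    · right
      rw [hUd] at hω
      have h1 : infClusters (openGraph G ω) = 1 := hω
      unfold infClusters at h1
      obtain ⟨c, hc'⟩ := Set.encard_eq_one.mp h1
      have h2 : (openGraph G ω).connectedComponentMk x = c := by
        have : (openGraph G ω).connectedComponentMk x
            ∈ {c : (openGraph G ω).ConnectedComponent | c.supp.Infinite} := hsupp ω x hin.1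
        rw [hc'] at this
        exact this
      have h3 : (openGraph G ω).connectedComponentMk y = c := by
        have : (openGraph G ω).connectedComponentMk y
            ∈ {c : (openGraph G ω).ConnectedComponent | c.supp.Infinite} := hsupp ω y hin.2
        rw [hc'] at this
        exact this
      exact SimpleGraph.ConnectedComponent.eq.mp (h2.trans h3.symm)
    · left
      exact hin
  have hmX : MeasurableSet (infEv G x ∩ infEv G y) :=
    (measSet_infEv G x).inter (measSet_infEv G y)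
  have hle : bondMeasure V p (infEv G x ∩ infEv G y)
      ≤ bondMeasure V p {ω | (openGraph G ω).Reachable x y} := by
    have h1 : (1 : ENNReal) ≤ (1 - bondMeasure V p (infEv G x ∩ infEv G y))
        + bondMeasure V p {ω | (openGraph G ω).Reachable x y} := by
      calc (1 : ENNReal) = bondMeasure V p U := hU.symm
        _ ≤ bondMeasure V p ((infEv G x ∩ infEv G y)ᶜ ∪ {ω | (openGraph G ω).Reachable x y}) :=
          measure_mono hsub
        _ ≤ bondMeasure V p (infEv G x ∩ infEv G y)ᶜ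
            + bondMeasure V p {ω | (openGraph G ω).Reachable x y} := measure_union_le _ _
        _ = _ := by rw [prob_compl_eq_one_sub hmX]
    have h2 : bondMeasure V p (infEv G x ∩ infEv G y)
        + (1 - bondMeasure V p (infEv G x ∩ infEv G y)) = 1 :=
      add_tsub_cancel_of_le prob_le_one
    have hne : (1 - bondMeasure V p (infEv G x ∩ infEv G y)) ≠ ⊤ :=
      ne_top_of_le_ne_top ENNReal.one_ne_top tsub_le_self
    refine (ENNReal.add_le_add_iff_right hne).mp ?_
    rw [h2, add_comm (bondMeasure V p {ω | (openGraph G ω).Reachable x y})]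
    exact h1
  have hW := meas_reachable_le G hC0 hr0 hT p hκ x y
  rw [← hκd] at hW
  have hW' : bondMeasure V p {ω | (openGraph G ω).Reachable x y}
      ≤ ENNReal.ofReal (C * κ ^ D / (1 - κ)) := by
    refine hW.trans (ENNReal.ofReal_le_ofReal ?_)
    apply div_le_div_of_nonneg_right _ h1κ.le
    apply mul_le_mul_of_nonneg_left _ hC0
    exact pow_le_pow_of_le_one hκ0 hκ1.le hφ
  have hfinal : ENNReal.ofReal (a * a) ≤ ENNReal.ofReal (C * κ ^ D / (1 - κ)) :=
    hX.trans (hle.trans hW')
  have := (ENNReal.ofReal_le_ofReal_iff'.mp hfinal)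
  rcases this with h | h
  · exact absurd h (not_le.mpr hsmall)
  · exact absurd h (not_le.mpr (mul_pos ha0 ha0))

omit [G.LocallyFinite] in
lemma openGraph_eq_self {ω : Sym2 V → Bool} (h : ∀ e, ω e = true) : openGraph G ω = G := by
  ext u v
  rw [openGraph_adj]
  constructor
  · exact fun h' => h'.1
  · exact fun h' => ⟨h', h _⟩

lemma infClusters_of_connected [Infinite V] {H : SimpleGraph V} (hH : H.Connected) :
    infClusters H = 1 := by
  unfold infClusters
  rw [Set.encard_eq_one]
  obtain ⟨o⟩ := hH.nonempty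
  refine ⟨H.connectedComponentMk o, ?_⟩
  have hall : ∀ c : H.ConnectedComponent, c = H.connectedComponentMk o := by
    intro c
    obtain ⟨v, rfl⟩ := c.exists_rep
    exact SimpleGraph.ConnectedComponent.eq.mpr (hH.preconnected v o)
  have hsupp : (H.connectedComponentMk o).supp = Set.univ := by
    ext v
    simp only [SimpleGraph.ConnectedComponent.mem_supp_iff, Set.mem_univ, iff_true]
    exact (hall _)
  ext c
  simp only [Set.mem_ofPred_eq, Set.mem_singleton_iff]
  constructor
  · exact fun _ => hall c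
  · rintro rfl
    rw [hsupp]
    exact Set.infinite_univ

/-- At `p = 1` there is a unique infinite cluster. -/
theorem meas_one [Infinite V] (hc : G.Connected) :
    bondMeasure V (1 : unitInterval) {ω | infClusters (openGraph G ω) = 1} = 1 := by
  have := countable_of_connected G hc
  apply le_antisymm prob_le_one
  have hnull : ∀ e : Sym2 V, bondMeasure V (1 : unitInterval) {ω | ω e = true}ᶜ = 0 := by
    intro e
    have hm : MeasurableSet {ω : Sym2 V → Bool | ω e = true} := by
      have h : {ω : Sym2 V → Bool | ω e = true} = (fun f : Sym2 V → Bool => f e) ⁻¹' {true} := by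
        ext ω
        simp
      rw [h]
      exact measurable_pi_apply e (measurableSet_singleton true)
    rw [prob_compl_eq_one_sub hm]
    have h := meas_all_open (V := V) (1 : unitInterval) {e}
    have hs : {ω : Sym2 V → Bool | ∀ e' ∈ ({e} : Finset (Sym2 V)), ω e' = true}
        = {ω | ω e = true} := by
      ext ω
      simp
    rw [hs] at h
    rw [h]
    simp
  have hnull2 : bondMeasure V (1 : unitInterval) (⋃ e : Sym2 V, {ω | ω e = true}ᶜ) = 0 :=
    measure_iUnion_null hnull
  have hsub : {ω : Sym2 V → Bool | infClusters (openGraph G ω) = 1}ᶜ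
      ⊆ ⋃ e : Sym2 V, {ω | ω e = true}ᶜ := by
    intro ω hω
    by_contra hcon
    apply hω
    have hall : ∀ e, ω e = true := by
      intro e
      by_contra he
      exact hcon (Set.mem_iUnion.mpr ⟨e, he⟩)
    show infClusters (openGraph G ω) = 1
    rw [openGraph_eq_self G hall]
    exact infClusters_of_connected hc
  have hc0 : bondMeasure V (1 : unitInterval)
      {ω : Sym2 V → Bool | infClusters (openGraph G ω) = 1}ᶜ = 0 :=
    measure_mono_null hsub hnull2
  calc (1 : ENNReal) = bondMeasure V (1 : unitInterval) Set.univ := measure_univ.symm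
    _ = bondMeasure V (1 : unitInterval) ({ω | infClusters (openGraph G ω) = 1}
        ∪ {ω | infClusters (openGraph G ω) = 1}ᶜ) := by rw [Set.union_compl_self]
    _ ≤ _ := (measure_union_le _ _).trans (by rw [hc0, add_zero])

/-- Lower bound on `p_u`. -/
theorem le_pU [Infinite V] (hc : G.Connected) (hqt : QuasiTransitive G) {C r : ℝ}
    (hC0 : 0 ≤ C) (hr0 : 0 < r)
    (hT : ∀ n x y, ((trailsF G n x y).card : ℝ) ≤ C * r ^ n) : 1 / r ≤ pU G := by
  unfold pU
  apply le_csInf
  · exact ⟨1, (1 : unitInterval), rfl, meas_one G hc⟩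
  · rintro x ⟨p, rfl, hp⟩
    by_contra hlt
    push Not at hlt
    have h1 : (p : ℝ) * r < 1 := by
      rwa [lt_div_iff₀ hr0] at hlt
    exact meas_unique_ne_one G hc hqt hC0 hr0.le hT p h1 hp

/-- The trail count is at most the walk count. -/
lemma trails_le_wc (n : ℕ) (x y : V) : (trailsF G n x y).card ≤ wc G n x y := by
  rw [← card_finsetWalkLength]
  exact Finset.card_filter_le _ _

/-- The spectral criterion. -/
theorem spectral_criterion [Infinite V] (hc : G.Connected) (hqt : QuasiTransitive G)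
    {δ Δ r p : ℝ} (hδ : ∀ v, δ ≤ (G.degree v : ℝ)) (hΔ : ∀ v, (G.degree v : ℝ) ≤ Δ)
    (hr0 : 0 < r) (hr : ∀ x n, (walkCount G (2 * n) x x : ℝ) ≤ r ^ (2 * n))
    (hp0 : 0 < p) (hp1 : p < 1) (hκ : p * r < 1)
    (hcrit : 1 ≤ p * (δ - 1 - p * Δ * (2 / (1 - p * r) ^ 2))) :
    pC G ≤ p ∧ 1 / r ≤ pU G := by
  have hr' : ∀ x n, (wc G (2 * n) x x : ℝ) ≤ r ^ (2 * n) := by
    intro x n
    rw [← walkCount_eq_wc]
    exact hr x n
  obtain ⟨o⟩ := hc.nonempty
  constructor
  · refine pC_le G hc (o := o) hp0 hp1 (fun S hoS => ?_)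
    refine phi_ge G o hoS hp0 hp1 (fun x _ => hδ x) ?_ hcrit
    refine Ds_le G o hoS hp0.le hp1.le (fun w _ => ?_)
    exact pair_sum_le G hr0.le hr' hp0.le hκ hΔ w S _
  · refine le_pU G hc hqt (C := 1) zero_le_one hr0 (fun n x y => ?_)
    rw [one_mul]
    refine le_trans ?_ (wc_le_pow G hr0.le hr' n x y)
    exact_mod_cast trails_le_wc G n x y

/-- The high-degree criterion for regular graphs. -/
theorem high_degree [Infinite V] (hc : G.Connected) (hqt : QuasiTransitive G) {d : ℕ}
    (hd : ∀ v, G.degree v = d) {ρ : ℝ} (hρ0 : 0 ≤ ρ)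
    (hρ : ∀ x n, (walkCount G (2 * n) x x : ℝ) ≤ ((d : ℝ) * ρ) ^ (2 * n))
    (hcrit : 28 ≤ (d : ℝ) * (1 - ρ) ^ 3) :
    pC G ≤ (1 + (1 - ρ) / 3) / d ∧ 1 / ((d : ℝ) * ρ) ≤ pU G ∧ pC G < pU G := by
  obtain ⟨o⟩ := hc.nonempty
  have hd0 : (0 : ℝ) ≤ d := Nat.cast_nonneg _
  obtain ⟨g, hg⟩ : ∃ g, g = 1 - ρ := ⟨_, rfl⟩
  rw [← hg] at hcrit ⊢
  have hρ' : ρ = 1 - g := by linarith
  have hg1 : g ≤ 1 := by linarith
  have hg0 : 0 < g := by
    by_contra hcon
    push Not at hcon
    have : g ^ 3 ≤ 0 := by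
      have h1 : g ^ 3 = g * g ^ 2 := by ring
      rw [h1]
      exact mul_nonpos_of_nonpos_of_nonneg hcon (sq_nonneg g)
    have h2 : (d : ℝ) * g ^ 3 ≤ 0 := mul_nonpos_of_nonneg_of_nonpos hd0 this
    linarith
  have hg3 : g ^ 3 ≤ 1 := pow_le_one₀ hg0.le hg1
  have hd28 : (28 : ℝ) ≤ d := by nlinarith
  have hdpos : (0 : ℝ) < d := by linarith
  have hρpos : 0 < ρ := by
    rcases hρ0.lt_or_eq with h | h
    · exact h
    · exfalso
      have h1 := hρ o 1
      rw [walkCount_eq_wc, ← h] at h1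
      have h2 : wc G (2 * 1) o o = d := by
        rw [show 2 * 1 = 2 from rfl, wc_two, hd]
      rw [h2] at h1
      norm_num at h1
      rw [h1] at hdpos
      norm_num at hdpos
  obtain ⟨lam, hlam⟩ : ∃ lam, lam = 1 + g / 3 := ⟨_, rfl⟩
  have hlam0 : 1 < lam := by rw [hlam]; linarith
  have hlam1 : lam ≤ 4 / 3 := by rw [hlam]; linarith
  obtain ⟨p, hp⟩ : ∃ p, p = lam / d := ⟨_, rfl⟩
  have hpd : p * d = lam := by rw [hp]; field_simp
  have hp0 : 0 < p := by rw [hp]; positivity
  have hp1 : p < 1 := by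
    rw [hp, div_lt_one hdpos]
    linarith
  have hrpos : 0 < (d : ℝ) * ρ := mul_pos hdpos hρpos
  have hκe : p * ((d : ℝ) * ρ) = lam * ρ := by rw [← mul_assoc, hpd]
  have hκ2 : lam * ρ ≤ 1 - 2 * g / 3 := by
    rw [hlam, hρ']
    nlinarith [sq_nonneg g]
  have hκ1 : p * ((d : ℝ) * ρ) < 1 := by
    rw [hκe]
    linarith
  have hgap : 2 * g / 3 ≤ 1 - p * ((d : ℝ) * ρ) := by
    rw [hκe]
    linarith
  obtain ⟨t, ht⟩ : ∃ t, t = 2 / (1 - p * ((d : ℝ) * ρ)) ^ 2 := ⟨_, rfl⟩
  have hgap0 : 0 < 1 - p * ((d : ℝ) * ρ) := by linarith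
  have ht0 : 0 < t := by rw [ht]; positivity
  have htg : t * g ^ 2 ≤ 9 / 2 := by
    rw [ht, div_mul_eq_mul_div, div_le_iff₀ (by positivity)]
    have : (2 * g / 3) ^ 2 ≤ (1 - p * ((d : ℝ) * ρ)) ^ 2 :=
      pow_le_pow_left₀ (by positivity) hgap 2
    nlinarith
  have hcrit' : 1 ≤ p * ((d : ℝ) - 1 - p * (d : ℝ) * t) := by
    -- multiply by `d g^2`
    have h1 : p * ((d : ℝ) - 1 - p * (d : ℝ) * t) = lam - p - p * lam * t := by
      calc p * ((d : ℝ) - 1 - p * (d : ℝ) * t)
          = p * d - p - p * (p * d) * t := by ring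
        _ = lam - p - p * lam * t := by rw [hpd]
    rw [h1]
    have h2 : (d : ℝ) * (p * (1 + lam * t)) ≤ d * (g / 3) := by
      have h3 : (d : ℝ) * (p * (1 + lam * t)) = lam * (1 + lam * t) := by
        calc (d : ℝ) * (p * (1 + lam * t)) = (p * d) * (1 + lam * t) := by ring
          _ = lam * (1 + lam * t) := by rw [hpd]
      rw [h3]
      have hg2pos : 0 < g ^ 2 := by positivity
      have hg2le : g ^ 2 ≤ 1 := pow_le_one₀ hg0.le hg1
      -- multiply by `g^2`
      have h4 : (lam * (1 + lam * t)) * g ^ 2 ≤ (d * (g / 3)) * g ^ 2 := by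
        have h5 : (lam * (1 + lam * t)) * g ^ 2 = lam * (g ^ 2 + lam * (t * g ^ 2)) := by ring
        rw [h5]
        have h6 : lam * (t * g ^ 2) ≤ 4 / 3 * (9 / 2) :=
          mul_le_mul hlam1 htg (by positivity) (by norm_num)
        have h7 : g ^ 2 + lam * (t * g ^ 2) ≤ 7 := by linarith
        have h8 : lam * (g ^ 2 + lam * (t * g ^ 2)) ≤ 4 / 3 * 7 :=
          mul_le_mul hlam1 h7 (by positivity) (by norm_num)
        have h9 : (d * (g / 3)) * g ^ 2 = (d * g ^ 3) / 3 := by ring
        rw [h9]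
        linarith
      exact le_of_mul_le_mul_right h4 hg2pos
    have h3 := le_of_mul_le_mul_left h2 hdpos
    have h4 : lam - 1 = g / 3 := by rw [hlam]; ring
    nlinarith
  have hmain := spectral_criterion G hc hqt (δ := d) (Δ := d) (r := (d : ℝ) * ρ) (p := p)
    (fun v => by rw [hd]) (fun v => by rw [hd]) hrpos hρ hp0 hp1 hκ1 (by rw [← ht]; exact hcrit')
  refine ⟨?_, hmain.2, ?_⟩
  · rw [← hlam, ← hp]
    exact hmain.1
  · refine lt_of_le_of_lt hmain.1 (lt_of_lt_of_le ?_ hmain.2)
    rwa [lt_div_iff₀ hrpos]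

end Vale.Agent.Lib.P165
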