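import Vale.Agent.Lib.P165.Ball

/-!
Cylinder events under the bond percolation measure.
-/

open MeasureTheory ProbabilityTheory

noncomputable section

namespace Vale.Agent.Lib.P165

attribute [local instance] Classical.propDecidable

variable {V : Type*} (p : unitInterval)

instance instProbBond : IsProbabilityMeasure (bondMeasure V p) := by
  unfold bondMeasure
  infer_instance

lemma ber_true : bernoulliMeasure true false p {true} = ENNReal.ofReal (p : ℝ) := by
  rw [bernoulliMeasure_apply_of_mem_of_notMem p (measurableSet_singleton true) (by simp) (by simp)]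
  rw [ENNReal.ofReal]
  congr 1
  ext
  simp [unitInterval.toNNReal, Real.toNNReal_of_nonneg p.2.1]
  rfl

lemma ber_false : bernoulliMeasure true false p {false} = ENNReal.ofReal (1 - (p : ℝ)) := by
  rw [bernoulliMeasure_apply_of_notMem_of_mem p (measurableSet_singleton false) (by simp) (by simp)]
  rw [ENNReal.ofReal]
  congr 1
  ext
  have h : 0 ≤ 1 - (p : ℝ) := by linarith [p.2.2]
  simp [unitInterval.toNNReal, Real.toNNReal_of_nonneg h]
  rfl

lemma p_nonneg : 0 ≤ (p : ℝ) := p.2.1

lemma p_le_one : (p : ℝ) ≤ 1 := p.2.2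

lemma cyl_eq_pi {F A : Finset (Sym2 V)} (hA : A ⊆ F) :
    {ω : Sym2 V → Bool | restr F ω = A}
      = Set.pi (↑F) (fun e => {decide (e ∈ A)}) := by
  ext ω
  simp only [Set.mem_ofPred_eq, Set.mem_pi, Set.mem_singleton_iff, Finset.mem_coe]
  constructor
  · intro h e he
    by_cases hc : e ∈ A
    · have : e ∈ restr F ω := by rw [h]; exact hc
      simp [hc, (mem_restr.mp this).2]
    · have : e ∉ restr F ω := by rw [h]; exact hc
      rw [mem_restr] at this
      simp only [hc, decide_false]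
      by_contra hne
      exact this ⟨he, by simpa using hne⟩
  · intro h
    ext e
    rw [mem_restr]
    constructor
    · rintro ⟨he, ht⟩
      have := h e he
      rw [ht] at this
      simpa using this.symm
    · intro hc
      have := h e (hA hc)
      exact ⟨hA hc, by rw [this]; simpa using hc⟩

lemma measSet_cyl {F A : Finset (Sym2 V)} (hA : A ⊆ F) :
    MeasurableSet {ω : Sym2 V → Bool | restr F ω = A} := by
  rw [cyl_eq_pi hA]
  exact MeasurableSet.pi (Finset.countable_toSet F) (fun _ _ => measurableSet_singleton _)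

lemma meas_cyl {F A : Finset (Sym2 V)} (hA : A ⊆ F) :
    bondMeasure V p {ω | restr F ω = A} = ENNReal.ofReal (wt (p : ℝ) F A) := by
  rw [cyl_eq_pi hA]
  unfold bondMeasure
  rw [Measure.infinitePi_pi _ (fun _ _ => measurableSet_singleton _)]
  unfold wt
  rw [ENNReal.ofReal_prod_of_nonneg]
  · apply Finset.prod_congr rfl
    intro e _
    by_cases hc : e ∈ A
    · simp only [hc, decide_true, if_true]
      exact ber_true p
    · simp only [hc, decide_false, if_false]
      exact ber_false p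
  · intro e _
    have h1 := p.2.1
    have h2 := p.2.2
    split_ifs <;> linarith

/-- The event `Q` of the restriction to `F` as a finite union of cylinders. -/
lemma event_eq_union (F : Finset (Sym2 V)) (Q : Finset (Sym2 V) → Prop) :
    {ω : Sym2 V → Bool | Q (restr F ω)}
      = ⋃ A ∈ F.powerset.filter Q, {ω : Sym2 V → Bool | restr F ω = A} := by
  ext ω
  simp only [Set.mem_ofPred_eq, Set.mem_iUnion, Finset.mem_filter, Finset.mem_powerset, exists_prop]
  constructor
  · intro h
    exact ⟨restr F ω, ⟨Finset.filter_subset _ _, h⟩, rfl⟩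
  · rintro ⟨A, ⟨_, hA⟩, rfl⟩
    exact hA

lemma measSet_event (F : Finset (Sym2 V)) (Q : Finset (Sym2 V) → Prop) :
    MeasurableSet {ω : Sym2 V → Bool | Q (restr F ω)} := by
  rw [event_eq_union]
  apply Finset.measurableSet_biUnion
  intro A hA
  exact measSet_cyl (Finset.mem_powerset.mp (Finset.mem_filter.mp hA).1)

lemma wt_nonneg' (F A : Finset (Sym2 V)) : 0 ≤ wt (p : ℝ) F A := wt_nonneg p.2.1 p.2.2 F A

/-- The measure of a cylinder event is a finite expectation. -/
lemma meas_event (F : Finset (Sym2 V)) (Q : Finset (Sym2 V) → Prop) :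
    bondMeasure V p {ω | Q (restr F ω)} = ENNReal.ofReal (Ex (p : ℝ) F (fun A => ind (Q A))) := by
  rw [event_eq_union, measure_biUnion_finset]
  · have h1 : ∀ A ∈ F.powerset.filter Q,
        bondMeasure V p {ω | restr F ω = A} = ENNReal.ofReal (wt (p : ℝ) F A) := by
      intro A hA
      exact meas_cyl p (Finset.mem_powerset.mp (Finset.mem_filter.mp hA).1)
    rw [Finset.sum_congr rfl h1, ← ENNReal.ofReal_sum_of_nonneg (fun A _ => wt_nonneg' p F A)]
    congr 1
    unfold Ex
    rw [Finset.sum_filter]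
    apply Finset.sum_congr rfl
    intro A _
    by_cases hQ : Q A
    · simp [hQ]
    · simp [hQ]
  · intro A _ B _ hAB
    apply Set.disjoint_left.mpr
    intro ω h1 h2
    exact hAB (h1.symm.trans h2)
  · intro A hA
    exact measSet_cyl (Finset.mem_powerset.mp (Finset.mem_filter.mp hA).1)

/-- The probability that all edges in `F` are open. -/
lemma meas_all_open (F : Finset (Sym2 V)) :
    bondMeasure V p {ω | ∀ e ∈ F, ω e = true} = ENNReal.ofReal ((p : ℝ) ^ F.card) := by
  have h : {ω : Sym2 V → Bool | ∀ e ∈ F, ω e = true} = Set.pi (↑F) (fun _ => {true}) := by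
    ext ω
    simp
  rw [h]
  unfold bondMeasure
  rw [Measure.infinitePi_pi _ (fun _ _ => measurableSet_singleton _), Finset.prod_congr rfl
    (fun _ _ => ber_true p), Finset.prod_const, ENNReal.ofReal_pow p.2.1]

/-- Harris inequality for cylinder events. -/
lemma meas_harris (F₁ F₂ : Finset (Sym2 V)) {Q₁ Q₂ : Finset (Sym2 V) → Prop}
    (h₁ : ∀ A B, A ⊆ B → Q₁ A → Q₁ B) (h₂ : ∀ A B, A ⊆ B → Q₂ A → Q₂ B) :
    bondMeasure V p {ω | Q₁ (restr F₁ ω)} * bondMeasure V p {ω | Q₂ (restr F₂ ω)}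
      ≤ bondMeasure V p ({ω | Q₁ (restr F₁ ω)} ∩ {ω | Q₂ (restr F₂ ω)}) := by
  obtain ⟨F, hF⟩ : ∃ F, F = F₁ ∪ F₂ := ⟨_, rfl⟩
  have hr₁ : ∀ ω : Sym2 V → Bool, restr F₁ ω = restr F ω ∩ F₁ := by
    intro ω
    ext e
    simp only [mem_restr, Finset.mem_inter, hF, Finset.mem_union]
    tauto
  have hr₂ : ∀ ω : Sym2 V → Bool, restr F₂ ω = restr F ω ∩ F₂ := by
    intro ω
    ext e
    simp only [mem_restr, Finset.mem_inter, hF, Finset.mem_union]
    tauto
  have e1 : {ω : Sym2 V → Bool | Q₁ (restr F₁ ω)} = {ω | (fun A => Q₁ (A ∩ F₁)) (restr F ω)} := by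
    ext ω
    simp only [Set.mem_ofPred_eq, hr₁]
  have e2 : {ω : Sym2 V → Bool | Q₂ (restr F₂ ω)} = {ω | (fun A => Q₂ (A ∩ F₂)) (restr F ω)} := by
    ext ω
    simp only [Set.mem_ofPred_eq, hr₂]
  have e3 : {ω : Sym2 V → Bool | Q₁ (restr F₁ ω)} ∩ {ω | Q₂ (restr F₂ ω)}
      = {ω | (fun A => Q₁ (A ∩ F₁) ∧ Q₂ (A ∩ F₂)) (restr F ω)} := by
    ext ω
    simp only [Set.mem_inter_iff, Set.mem_ofPred_eq, hr₁, hr₂]
  rw [e3, e1, e2, meas_event p F (fun A => Q₁ (A ∩ F₁)), meas_event p F (fun A => Q₂ (A ∩ F₂)),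
    meas_event p F (fun A => Q₁ (A ∩ F₁) ∧ Q₂ (A ∩ F₂))]
  have hp0 := p.2.1
  have hp1 := p.2.2
  rw [← ENNReal.ofReal_mul (Ex_nonneg hp0 hp1 (fun _ _ => ind_nonneg _))]
  apply ENNReal.ofReal_le_ofReal
  have hh := Ex_harris hp0 hp1 F (f := fun A => ind (Q₁ (A ∩ F₁)))
    (g := fun A => ind (Q₂ (A ∩ F₂)))
    (fun A B hAB => ind_mono (h₁ _ _ (Finset.inter_subset_inter_right hAB)))
    (fun A B hAB => ind_mono (h₂ _ _ (Finset.inter_subset_inter_right hAB)))
  refine hh.trans (le_of_eq ?_)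
  apply Ex_congr
  intro A _
  by_cases c1 : Q₁ (A ∩ F₁)
  · by_cases c2 : Q₂ (A ∩ F₂)
    · have c3 : Q₁ (A ∩ F₁) ∧ Q₂ (A ∩ F₂) := ⟨c1, c2⟩
      rw [ind_true c1, ind_true c2, ind_true c3, one_mul]
    · have c3 : ¬ (Q₁ (A ∩ F₁) ∧ Q₂ (A ∩ F₂)) := fun h => c2 h.2
      rw [ind_false c2, ind_false c3, mul_zero]
  · have c3 : ¬ (Q₁ (A ∩ F₁) ∧ Q₂ (A ∩ F₂)) := fun h => c1 h.1
    rw [ind_false c1, ind_false c3, zero_mul]

/-- Invariance of the measure under relabelling the edges. -/
lemma bond_map_comp (e : Sym2 V ≃ Sym2 V) :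
    (bondMeasure V p).map (fun ω => ω ∘ e) = bondMeasure V p := by
  have hm : Measurable (fun ω : Sym2 V → Bool => ω ∘ e) :=
    measurable_pi_lambda _ (fun i => measurable_pi_apply (e i))
  apply Measure.eq_infinitePi
  intro s t ht
  rw [Measure.map_apply hm (MeasurableSet.pi (Finset.countable_toSet s) (fun i _ => ht i))]
  have h : (fun ω : Sym2 V → Bool => ω ∘ e) ⁻¹' Set.pi (↑s) t
      = Set.pi (↑(s.map e.toEmbedding)) (fun j => t (e.symm j)) := by
    ext ω
    simp only [Set.mem_preimage, Set.mem_pi, Finset.mem_coe, Finset.mem_map_equiv,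
      Function.comp_apply]
    constructor
    · intro h j hj
      have := h _ hj
      simpa using this
    · intro h i hi
      have := h (e i) (by simpa using hi)
      rw [Equiv.symm_apply_apply] at this
      exact this
  rw [h]
  unfold bondMeasure
  rw [Measure.infinitePi_pi _ (fun j _ => ht _), Finset.prod_map]
  apply Finset.prod_congr rfl
  intro i _
  simp only [Equiv.coe_toEmbedding]
  rw [Equiv.symm_apply_apply]

end Vale.Agent.Lib.P165
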