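import Vale.Agent.Lib.P165.Meas

/-!
If the boundary functional is at least one for all finite sets containing `o`, then
percolation occurs at every larger parameter.
-/

open MeasureTheory ProbabilityTheory Filter Topology

noncomputable section

namespace Vale.Agent.Lib.P165

attribute [local instance] Classical.propDecidable

variable {V : Type*} (G : SimpleGraph V) [G.LocallyFinite]

lemma measSet_ballEv (n : ℕ) (x : V) : MeasurableSet (ballEv G n x) :=
  measSet_event (inE G (ballF G n x)) (fun A => reachB (sphereF G n x) A x)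

lemma meas_ballEv (p : unitInterval) (n : ℕ) (x : V) :
    bondMeasure V p (ballEv G n x)
      = ENNReal.ofReal (Ex (p : ℝ) (inE G (ballF G n x))
        (fun A => ind (reachB (sphereF G n x) A x))) :=
  meas_event p (inE G (ballF G n x)) (fun A => reachB (sphereF G n x) A x)

/-- The vertex `x` is in an infinite cluster. -/
def infEv (x : V) : Set (Sym2 V → Bool) := ⋂ n, ballEv G n x

lemma measSet_infEv (x : V) : MeasurableSet (infEv G x) :=
  MeasurableSet.iInter (fun n => measSet_ballEv G n x)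

lemma infClusters_of_infEv (hc : G.Connected) {x : V} {ω : Sym2 V → Bool} (h : ω ∈ infEv G x) :
    1 ≤ infClusters (openGraph G ω) := by
  have hinf : (clusterOf G ω x).Infinite := (infinite_cluster_iff G hc ω x).mpr h
  rw [clusterOf_eq_supp] at hinf
  unfold infClusters
  rw [Set.one_le_encard_iff_nonempty]
  exact ⟨_, hinf⟩

lemma tendsto_meas_infEv (hc : G.Connected) (p : unitInterval) (x : V) :
    Tendsto (fun n => bondMeasure V p (ballEv G n x)) atTop
      (𝓝 (bondMeasure V p (infEv G x))) := by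
  have := tendsto_measure_iInter_atTop (μ := bondMeasure V p) (s := fun n => ballEv G n x)
    (fun n => (measSet_ballEv G n x).nullMeasurableSet) (ballEv_anti G hc x)
    ⟨0, measure_ne_top _ _⟩
  exact this

/-- Lower bound on the probability of an infinite cluster. -/
theorem meas_infEv_pos (hc : G.Connected) {o : V} {p₀ : ℝ} (h0 : 0 < p₀) {p : unitInterval}
    (hp : p₀ < (p : ℝ)) (hp1 : (p : ℝ) < 1)
    (hφ : ∀ S : Finset V, o ∈ S →
      1 ≤ p₀ * ∑ x ∈ S, ((outN G S x).card : ℝ) * tt G o S p₀ x) :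
    0 < bondMeasure V p (infEv G o) := by
  obtain ⟨c, hc'⟩ : ∃ c, c = 1 - (p₀ * (1 - (p : ℝ))) / ((p : ℝ) * (1 - p₀)) := ⟨_, rfl⟩
  have hp₀1 : p₀ < 1 := hp.trans hp1
  have hp0 : 0 < (p : ℝ) := h0.trans hp
  have hcpos : 0 < c := by
    rw [hc', sub_pos, div_lt_one (mul_pos hp0 (by linarith))]
    nlinarith
  have hbound : ∀ n, ENNReal.ofReal c ≤ bondMeasure V p (ballEv G n o) := by
    intro n
    rw [meas_ballEv]
    apply ENNReal.ofReal_le_ofReal
    rw [hc']
    exact theta_lower G (self_mem_ballF G hc n o) (sphereF_subset G n o) (ball_closed G hc n o)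
      h0 hp hp1 (fun S _ hoS => hφ S hoS)
  have hlim := ge_of_tendsto' (tendsto_meas_infEv G hc p o) hbound
  exact lt_of_lt_of_le (ENNReal.ofReal_pos.mpr hcpos) hlim

/-- Upper bound on `p_c`. -/
theorem pC_le (hc : G.Connected) {o : V} {p₀ : ℝ} (h0 : 0 < p₀) (h1 : p₀ < 1)
    (hφ : ∀ S : Finset V, o ∈ S →
      1 ≤ p₀ * ∑ x ∈ S, ((outN G S x).card : ℝ) * tt G o S p₀ x) :
    pC G ≤ p₀ := by
  apply le_of_forall_gt_imp_ge_of_dense
  intro a ha
  obtain ⟨b, hb, hb'⟩ : ∃ b, p₀ < b ∧ b ≤ a ∧ b < 1 := by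
    refine ⟨min a ((p₀ + 1) / 2), lt_min ha (by linarith), min_le_left _ _, ?_⟩
    exact lt_of_le_of_lt (min_le_right _ _) (by linarith)
  have hb0 : 0 < b := h0.trans hb
  obtain ⟨hba, hb1⟩ := hb'
  refine le_trans ?_ hba
  unfold pC
  apply csInf_le ⟨0, ?_⟩ ?_
  · rintro x ⟨p, rfl, _⟩
    exact p.2.1
  · refine ⟨⟨b, hb0.le, hb1.le⟩, rfl, ?_⟩
    have := meas_infEv_pos G hc (p := ⟨b, hb0.le, hb1.le⟩) h0 hb hb1 hφ
    refine lt_of_lt_of_le this (measure_mono ?_)
    intro ω hω
    exact infClusters_of_infEv G hc hω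

end Vale.Agent.Lib.P165
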