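import Vale.Agent.Lib.P165.Conn

/-!
The boundary functional of a finite set: the edge-counting identity.
-/

open Finset

noncomputable section

namespace Vale.Agent.Lib.P165

attribute [local instance] Classical.propDecidable

variable {V : Type*}

section Indicators

variable (o : V)

/-- `x` is in the cluster of `o`, the neighbour `y` is not. -/
def al (A : Finset (Sym2 V)) (x y : V) : ℝ := ind (conn A o x ∧ ¬ conn A o y)

/-- The edge `xy` is open and is a bridge oriented away from `o`. -/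
def be (A : Finset (Sym2 V)) (x y : V) : ℝ :=
  ind (s(x, y) ∈ A ∧ conn (A.erase s(x, y)) o x ∧ ¬ conn (A.erase s(x, y)) o y)

/-- Both endpoints of `xy` are connected to `o` off the edge `xy`. -/
def de (A : Finset (Sym2 V)) (x y : V) : ℝ :=
  ind (conn (A.erase s(x, y)) o x ∧ conn (A.erase s(x, y)) o y)

variable {o}

lemma erase_split {A : Finset (Sym2 V)} {x y : V} (h : conn A o x)
    (hx : ¬ conn (A.erase s(x, y)) o x) (hy : ¬ conn (A.erase s(x, y)) o y) : False := by
  have := conn_closure (A := A) {u | conn (A.erase s(x, y)) o u} (fun u hu v huv hne => ?_)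
    (conn_refl _ o) h
  · exact hx this
  · have hne' : s(u, v) ≠ s(x, y) := by
      intro heq
      rcases Sym2.eq_iff.mp heq with ⟨rfl, rfl⟩ | ⟨rfl, rfl⟩
      · exact hx hu
      · exact hy hu
    exact conn_trans hu (conn_edge (Finset.mem_erase.mpr ⟨hne', huv⟩) hne)

lemma pointwise_split (A : Finset (Sym2 V)) (x y : V) :
    ind (conn A o x) ≤ al o A x y + be o A x y + be o A y x + de o A x y := by
  have h0 := ind_nonneg (conn A o x ∧ ¬ conn A o y)
  have h1 := ind_nonneg (s(x, y) ∈ A ∧ conn (A.erase s(x, y)) o x ∧ ¬ conn (A.erase s(x, y)) o y)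
  have h2 := ind_nonneg (s(y, x) ∈ A ∧ conn (A.erase s(y, x)) o y ∧ ¬ conn (A.erase s(y, x)) o x)
  have h3 := ind_nonneg (conn (A.erase s(x, y)) o x ∧ conn (A.erase s(x, y)) o y)
  unfold al be de
  by_cases hx : conn A o x
  · rw [ind_true hx]
    by_cases hy : conn A o y
    · have hswap : s(y, x) = s(x, y) := Sym2.eq_swap
      by_cases hx' : conn (A.erase s(x, y)) o x
      · by_cases hy' : conn (A.erase s(x, y)) o y
        · rw [ind_true (⟨hx', hy'⟩ : conn (A.erase s(x, y)) o x ∧ conn (A.erase s(x, y)) o y)]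
          linarith
        · have he : s(x, y) ∈ A := by
            by_contra he
            rw [Finset.erase_eq_of_notMem he] at hy'
            exact hy' hy
          rw [ind_true (⟨he, hx', hy'⟩ : s(x, y) ∈ A ∧ conn (A.erase s(x, y)) o x ∧
            ¬ conn (A.erase s(x, y)) o y)]
          linarith
      · by_cases hy' : conn (A.erase s(x, y)) o y
        · have he : s(x, y) ∈ A := by
            by_contra he
            rw [Finset.erase_eq_of_notMem he] at hx'
            exact hx' hx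
          have : s(y, x) ∈ A ∧ conn (A.erase s(y, x)) o y ∧ ¬ conn (A.erase s(y, x)) o x := by
            rw [hswap]
            exact ⟨he, hy', hx'⟩
          rw [ind_true this]
          linarith
        · exact absurd (erase_split hx hx' hy') id
    · rw [ind_true (⟨hx, hy⟩ : conn A o x ∧ ¬ conn A o y)]
      linarith
  · rw [ind_false hx]
    linarith

/-- Flipping the state of the edge `xy`. -/
lemma flip_edge {F : Finset (Sym2 V)} {x y : V} (he : s(x, y) ∈ F) (hne : x ≠ y) (p : ℝ) :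
    p * Ex p F (fun A => al o A x y) = (1 - p) * Ex p F (fun A => be o A x y) := by
  have hF : insert s(x, y) (F.erase s(x, y)) = F := Finset.insert_erase he
  have he₀ : s(x, y) ∉ F.erase s(x, y) := Finset.notMem_erase _ _
  obtain ⟨F₀, hF₀⟩ : ∃ F₀, F₀ = F.erase s(x, y) := ⟨_, rfl⟩
  rw [← hF₀] at hF he₀
  rw [← hF, Ex_insert he₀, Ex_insert he₀]
  have h1 : Ex p F₀ (fun A => al o (insert s(x, y) A) x y) = 0 := by
    have : Ex p F₀ (fun A => al o (insert s(x, y) A) x y) = Ex p F₀ (fun _ => 0) := by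
      apply Ex_congr
      intro A _
      unfold al
      apply ind_false
      rintro ⟨h, h'⟩
      exact h' (conn_trans h (conn_edge (Finset.mem_insert_self _ _) hne))
    rw [this, Ex_const]
  have h2 : Ex p F₀ (fun A => be o A x y) = 0 := by
    have : Ex p F₀ (fun A => be o A x y) = Ex p F₀ (fun _ => 0) := by
      apply Ex_congr
      intro A hA
      unfold be
      apply ind_false
      rintro ⟨h, _⟩
      exact he₀ (hA h)
    rw [this, Ex_const]
  have h3 : Ex p F₀ (fun A => be o (insert s(x, y) A) x y) = Ex p F₀ (fun A => al o A x y) := by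
    apply Ex_congr
    intro A hA
    have hA' : s(x, y) ∉ A := fun h => he₀ (hA h)
    unfold be al
    rw [Finset.erase_insert hA']
    congr 1
    simp
  rw [h1, h2, h3]
  ring

/-- Two open bridges into the same vertex, oriented away from `o`, coincide. -/
lemma be_unique {A : Finset (Sym2 V)} {x x' y : V} (hne : x ≠ y) (hne' : x' ≠ y)
    (h : s(x, y) ∈ A) (h1 : conn (A.erase s(x, y)) o x) (h2 : ¬ conn (A.erase s(x, y)) o y)
    (h' : s(x', y) ∈ A) (h1' : conn (A.erase s(x', y)) o x')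
    (h2' : ¬ conn (A.erase s(x', y)) o y) : x = x' := by
  by_contra hxx
  have hee : s(x, y) ≠ s(x', y) := by
    intro heq
    rcases Sym2.eq_iff.mp heq with ⟨a, _⟩ | ⟨a, b⟩
    · exact hxx a
    · exact hne a
  obtain ⟨A₂, hA₂⟩ : ∃ A₂, A₂ = (A.erase s(x, y)).erase s(x', y) := ⟨_, rfl⟩
  have s1 : A₂ ⊆ A.erase s(x', y) := by
    rw [hA₂]
    intro e he
    simp only [Finset.mem_erase] at he ⊢
    exact ⟨he.1, he.2.2⟩
  have s2 : A₂ ⊆ A.erase s(x, y) := by
    rw [hA₂]
    exact Finset.erase_subset _ _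
  have key : x' ∈ {u | conn A₂ o u} := by
    refine conn_closure (A := A.erase s(x', y)) {u | conn A₂ o u} (fun u hu v huv hne2 => ?_)
      (conn_refl _ o) h1'
    have hu' : conn A₂ o u := hu
    by_cases hc : s(u, v) = s(x, y)
    · exfalso
      rcases Sym2.eq_iff.mp hc with ⟨rfl, rfl⟩ | ⟨rfl, rfl⟩
      · apply h2'
        exact conn_trans (conn_mono s1 hu') (conn_edge (Finset.mem_erase.mpr ⟨hee, h⟩) hne)
      · exact h2' (conn_mono s1 hu')
    · have : s(u, v) ∈ A₂ := by
        rw [hA₂]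
        simp only [Finset.mem_erase] at huv ⊢
        exact ⟨huv.1, hc, huv.2⟩
      exact conn_trans hu' (conn_edge this hne2)
  have hx' : conn A₂ o x' := key
  apply h2
  exact conn_trans (conn_mono s2 hx') (conn_edge (Finset.mem_erase.mpr ⟨hee.symm, h'⟩) hne')

end Indicators

section Main

variable (G : SimpleGraph V) [G.LocallyFinite] (o : V)

lemma sum_be_y (A : Finset (Sym2 V)) (S : Finset V) (y : V) :
    ∑ x ∈ nb G S y, be o A x y ≤ if y = o then 0 else ind (conn A o y) := by
  by_cases hex : ∃ x ∈ nb G S y, (s(x, y) ∈ A ∧ conn (A.erase s(x, y)) o x ∧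
      ¬ conn (A.erase s(x, y)) o y)
  · obtain ⟨x₀, hx₀, hc⟩ := hex
    have hne₀ : x₀ ≠ y := ((mem_nb G).mp hx₀).1.ne'
    have hyo : y ≠ o := by
      rintro rfl
      exact hc.2.2 (conn_refl _ _)
    have hconn : conn A o y :=
      conn_trans (conn_mono (Finset.erase_subset _ _) hc.2.1) (conn_edge hc.1 hne₀)
    rw [if_neg hyo, ind_true hconn]
    rw [Finset.sum_eq_single x₀]
    · exact ind_le_one _
    · intro x hx hxne
      unfold be
      apply ind_false
      rintro ⟨h1, h2, h3⟩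
      have hne : x ≠ y := ((mem_nb G).mp hx).1.ne'
      exact hxne (be_unique hne hne₀ h1 h2 h3 hc.1 hc.2.1 hc.2.2)
    · intro h
      exact absurd hx₀ h
  · have : ∑ x ∈ nb G S y, be o A x y = 0 := by
      apply Finset.sum_eq_zero
      intro x hx
      unfold be
      apply ind_false
      exact fun hc => hex ⟨x, hx, hc⟩
    rw [this]
    split_ifs
    · exact le_rfl
    · exact ind_nonneg _

lemma sum_be_le (A : Finset (Sym2 V)) {S : Finset V} (ho : o ∈ S) :
    ∑ x ∈ S, ∑ y ∈ nb G S x, be o A x y ≤ ∑ x ∈ S, ind (conn A o x) - 1 := by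
  rw [sum_nb_swap G S (fun x y => be o A x y)]
  have h1 : ∑ y ∈ S, ∑ x ∈ nb G S y, be o A x y
      ≤ ∑ y ∈ S, if y = o then 0 else ind (conn A o y) :=
    Finset.sum_le_sum (fun y _ => sum_be_y G o A S y)
  have h2 : ∑ y ∈ S, (if y = o then (0 : ℝ) else ind (conn A o y)) + 1
      = ∑ y ∈ S, ind (conn A o y) := by
    have : (1 : ℝ) = ∑ y ∈ S, if y = o then (1 : ℝ) else 0 := by
      rw [Finset.sum_ite_eq' S o]
      simp [ho]
    rw [this, ← Finset.sum_add_distrib]
    apply Finset.sum_congr rfl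
    intro y _
    by_cases hy : y = o
    · subst hy
      simp [ind_true (conn_refl A y)]
    · simp [hy]
  linarith

/-- Connection probability from `o` to `x` inside `S`. -/
def tt (S : Finset V) (p : ℝ) (x : V) : ℝ := Ex p (inE G S) (fun A => ind (conn A o x))

omit [G.LocallyFinite] in
lemma tt_nonneg {S : Finset V} {p : ℝ} (h0 : 0 ≤ p) (h1 : p ≤ 1) (x : V) : 0 ≤ tt G o S p x :=
  Ex_nonneg h0 h1 (fun _ _ => ind_nonneg _)

omit [G.LocallyFinite] in
lemma tt_self (S : Finset V) (p : ℝ) : tt G o S p o = 1 := by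
  unfold tt
  have : Ex p (inE G S) (fun A => ind (conn A o o)) = Ex p (inE G S) (fun _ => 1) := by
    apply Ex_congr
    intro A _
    exact ind_true (conn_refl A o)
  rw [this, Ex_const]

/-- The main lower bound on the boundary functional. -/
theorem phi_ge {S : Finset V} (ho : o ∈ S) {p : ℝ} (hp0 : 0 < p) (hp1 : p < 1) {δ B' : ℝ}
    (hδ : ∀ x ∈ S, δ ≤ (G.degree x : ℝ))
    (hB' : ∑ x ∈ S, ∑ y ∈ nb G S x, Ex p (inE G S) (fun A => de o A x y)
      ≤ (∑ x ∈ S, tt G o S p x) * B')
    (hc : 1 ≤ p * (δ - 1 - B')) :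
    1 ≤ p * ∑ x ∈ S, ((outN G S x).card : ℝ) * tt G o S p x := by
  obtain ⟨N, hN⟩ : ∃ N, N = ∑ x ∈ S, tt G o S p x := ⟨_, rfl⟩
  obtain ⟨F, hF⟩ : ∃ F, F = inE G S := ⟨_, rfl⟩
  have hp0' := hp0.le
  have hp1' := hp1.le
  have hN1 : 1 ≤ N := by
    rw [hN]
    calc (1 : ℝ) = tt G o S p o := (tt_self G o S p).symm
      _ ≤ ∑ x ∈ S, tt G o S p x :=
        Finset.single_le_sum (fun x _ => tt_nonneg G o hp0' hp1' x) ho
  obtain ⟨Bs, hBs⟩ : ∃ Bs, Bs = ∑ x ∈ S, ∑ y ∈ nb G S x, Ex p F (fun A => be o A x y) := ⟨_, rfl⟩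
  have hBs_le : Bs ≤ N - 1 := by
    have h1 : Bs = Ex p F (fun A => ∑ x ∈ S, ∑ y ∈ nb G S x, be o A x y) := by
      rw [hBs, Ex_sum]
      apply Finset.sum_congr rfl
      intro x _
      rw [Ex_sum]
    have h2 : Ex p F (fun A => ∑ x ∈ S, ∑ y ∈ nb G S x, be o A x y)
        ≤ Ex p F (fun A => ∑ x ∈ S, ind (conn A o x) - 1) :=
      Ex_mono hp0' hp1' (fun A _ => sum_be_le G o A ho)
    have h3 : Ex p F (fun A => ∑ x ∈ S, ind (conn A o x) - 1) = N - 1 := by
      rw [Ex_sub, Ex_const, Ex_sum, hN]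
      congr 1
      apply Finset.sum_congr rfl
      intro x _
      rw [hF]
      rfl
    linarith
  have hsplit : ∀ x ∈ S, ∀ y ∈ nb G S x,
      p * tt G o S p x ≤ (1 - p) * Ex p F (fun A => be o A x y) + p * Ex p F (fun A => be o A x y)
        + p * Ex p F (fun A => be o A y x) + p * Ex p F (fun A => de o A x y) := by
    intro x hx y hy
    have hadj := ((mem_nb G).mp hy).1
    have hyS := ((mem_nb G).mp hy).2
    have hmem : s(x, y) ∈ F := by
      rw [hF]
      exact (mk_mem_inE G).mpr ⟨hadj, hx, hyS⟩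
    have hflip := flip_edge (o := o) hmem hadj.ne p
    have hpt : tt G o S p x ≤ Ex p F (fun A => al o A x y) + Ex p F (fun A => be o A x y)
        + Ex p F (fun A => be o A y x) + Ex p F (fun A => de o A x y) := by
      rw [← Ex_add, ← Ex_add, ← Ex_add]
      unfold tt
      rw [← hF]
      exact Ex_mono hp0' hp1' (fun A _ => pointwise_split A x y)
    have := mul_le_mul_of_nonneg_left hpt hp0'
    rw [mul_add, mul_add, mul_add, hflip] at this
    linarith
  have hswap : ∑ x ∈ S, ∑ y ∈ nb G S x, Ex p F (fun A => be o A y x) = Bs := by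
    rw [hBs, sum_nb_swap G S (fun x y => Ex p F (fun A => be o A y x))]
  have hnb : p * ∑ x ∈ S, ((nb G S x).card : ℝ) * tt G o S p x
      ≤ (1 + p) * Bs + p * (N * B') := by
    have h1 : p * ∑ x ∈ S, ((nb G S x).card : ℝ) * tt G o S p x
        = ∑ x ∈ S, ∑ _y ∈ nb G S x, p * tt G o S p x := by
      rw [Finset.mul_sum]
      apply Finset.sum_congr rfl
      intro x _
      rw [Finset.sum_const, nsmul_eq_mul]
      ring
    rw [h1]
    have h2 : ∑ x ∈ S, ∑ y ∈ nb G S x, p * tt G o S p x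
        ≤ ∑ x ∈ S, ∑ y ∈ nb G S x, ((1 - p) * Ex p F (fun A => be o A x y)
          + p * Ex p F (fun A => be o A x y)
          + p * Ex p F (fun A => be o A y x) + p * Ex p F (fun A => de o A x y)) :=
      Finset.sum_le_sum (fun x hx => Finset.sum_le_sum (fun y hy => hsplit x hx y hy))
    have h3 : ∑ x ∈ S, ∑ y ∈ nb G S x, ((1 - p) * Ex p F (fun A => be o A x y)
          + p * Ex p F (fun A => be o A x y)
          + p * Ex p F (fun A => be o A y x) + p * Ex p F (fun A => de o A x y))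
        = (1 - p) * Bs + p * Bs
          + p * (∑ x ∈ S, ∑ y ∈ nb G S x, Ex p F (fun A => be o A y x))
          + p * (∑ x ∈ S, ∑ y ∈ nb G S x, Ex p F (fun A => de o A x y)) := by
      rw [hBs]
      simp only [Finset.mul_sum, Finset.sum_add_distrib]
    rw [h3, hswap] at h2
    have h4 : ∑ x ∈ S, ∑ y ∈ nb G S x, Ex p F (fun A => de o A x y) ≤ N * B' := by
      rw [hF, hN]
      exact hB'
    have h5 := mul_le_mul_of_nonneg_left h4 hp0'
    linarith
  have hdeg : δ * N ≤ ∑ x ∈ S, ((nb G S x).card : ℝ) * tt G o S p x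
      + ∑ x ∈ S, ((outN G S x).card : ℝ) * tt G o S p x := by
    rw [← Finset.sum_add_distrib, hN, Finset.mul_sum]
    apply Finset.sum_le_sum
    intro x hx
    have h1 : ((nb G S x).card : ℝ) + ((outN G S x).card : ℝ) = (G.degree x : ℝ) := by
      have := card_nb_add_outN G S x
      exact_mod_cast this
    have h2 := mul_le_mul_of_nonneg_right (hδ x hx) (tt_nonneg G o hp0' hp1' (S := S) x)
    calc δ * tt G o S p x ≤ (G.degree x : ℝ) * tt G o S p x := h2
      _ = ((nb G S x).card : ℝ) * tt G o S p x + ((outN G S x).card : ℝ) * tt G o S p x := by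
        rw [← h1]; ring
  obtain ⟨Xo, hXo⟩ : ∃ X, X = ∑ x ∈ S, ((outN G S x).card : ℝ) * tt G o S p x := ⟨_, rfl⟩
  obtain ⟨Xn, hXn⟩ : ∃ X, X = ∑ x ∈ S, ((nb G S x).card : ℝ) * tt G o S p x := ⟨_, rfl⟩
  rw [← hXo]
  rw [← hXn] at hnb hdeg
  rw [← hXo] at hdeg
  have h6 : p * (δ * N) ≤ p * Xn + p * Xo := by
    have := mul_le_mul_of_nonneg_left hdeg hp0'
    linarith
  have h7 : (1 + p) * Bs ≤ (1 + p) * (N - 1) :=
    mul_le_mul_of_nonneg_left hBs_le (by linarith)
  have h8 : 0 ≤ (p * (δ - 1 - B') - 1) * N :=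
    mul_nonneg (by linarith) (by linarith)
  nlinarith

end Main

end Vale.Agent.Lib.P165
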