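import Vale.Agent.Lib.P165.PcBound

/-!
Non-uniqueness below the reciprocal of the growth rate of trails, on quasi-transitive graphs.
-/

open MeasureTheory ProbabilityTheory Filter Topology

noncomputable section

namespace Vale.Agent.Lib.P165

attribute [local instance] Classical.propDecidable

variable {V : Type*} (G : SimpleGraph V) [G.LocallyFinite]

/-- The trails of length `n` from `x` to `y`. -/
def trailsF (n : ℕ) (x y : V) : Finset (G.Walk x y) :=
  (G.finsetWalkLength n x y).filter (fun π => π.IsTrail)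

omit [G.LocallyFinite] in
lemma openGraph_le (ω : Sym2 V → Bool) : openGraph G ω ≤ G := by
  intro u v h
  exact ((openGraph_adj G).mp h).1

omit [G.LocallyFinite] in
lemma open_of_mem_edges {ω : Sym2 V → Bool} {x y : V} (π : (openGraph G ω).Walk x y) :
    ∀ e ∈ π.edges, ω e = true := by
  intro e he
  have h := π.edges_subset_edgeSet he
  unfold openGraph at h
  rw [SimpleGraph.edgeSet_fromEdgeSet] at h
  exact h.1.2

/-- The union bound for connections. -/
theorem meas_reachable_le {C r : ℝ} (hC0 : 0 ≤ C) (hr0 : 0 ≤ r)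
    (hT : ∀ n x y, ((trailsF G n x y).card : ℝ) ≤ C * r ^ n) (p : unitInterval)
    (hκ : (p : ℝ) * r < 1) (x y : V) :
    bondMeasure V p {ω | (openGraph G ω).Reachable x y}
      ≤ ENNReal.ofReal (C * ((p : ℝ) * r) ^ (G.dist x y) / (1 - (p : ℝ) * r)) := by
  obtain ⟨κ, hκd⟩ : ∃ κ, κ = (p : ℝ) * r := ⟨_, rfl⟩
  rw [← hκd] at hκ ⊢
  have hκ0 : 0 ≤ κ := by rw [hκd]; exact mul_nonneg p.2.1 hr0
  obtain ⟨D, hD⟩ : ∃ D, D = G.dist x y := ⟨_, rfl⟩
  rw [← hD]
  have hsub : {ω : Sym2 V → Bool | (openGraph G ω).Reachable x y}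
      ⊆ ⋃ n : ℕ, ⋃ π ∈ trailsF G (n + D) x y, {ω | ∀ e ∈ π.edges.toFinset, ω e = true} := by
    intro ω hω
    obtain ⟨π', hπ'⟩ := SimpleGraph.Reachable.exists_isPath hω
    obtain ⟨π, hπ⟩ : ∃ π, π = π'.mapLe (openGraph_le G ω) := ⟨_, rfl⟩
    have hlen : D ≤ π.length := by
      rw [hD]
      exact SimpleGraph.dist_le π
    simp only [Set.mem_iUnion, exists_prop]
    refine ⟨π.length - D, π, ?_, ?_⟩
    · unfold trailsF
      rw [Finset.mem_filter]
      refine ⟨SimpleGraph.mem_finsetWalkLength_iff.mpr (by omega), ?_⟩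
      rw [hπ]
      exact hπ'.isTrail.mapLe _
    · intro e he
      rw [List.mem_toFinset, hπ, edges_mapLe] at he
      exact open_of_mem_edges G π' e he
  refine (measure_mono hsub).trans ?_
  refine (measure_iUnion_le _).trans ?_
  have hterm : ∀ n : ℕ, bondMeasure V p
      (⋃ π ∈ trailsF G (n + D) x y, {ω | ∀ e ∈ π.edges.toFinset, ω e = true})
      ≤ ENNReal.ofReal (C * κ ^ (n + D)) := by
    intro n
    refine (measure_biUnion_finset_le _ _).trans ?_
    have h1 : ∀ π ∈ trailsF G (n + D) x y,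
        bondMeasure V p {ω | ∀ e ∈ π.edges.toFinset, ω e = true}
          = ENNReal.ofReal ((p : ℝ) ^ (n + D)) := by
      intro π hπ
      unfold trailsF at hπ
      rw [Finset.mem_filter] at hπ
      rw [meas_all_open, List.toFinset_card_of_nodup hπ.2.edges_nodup,
        SimpleGraph.Walk.length_edges, SimpleGraph.mem_finsetWalkLength_iff.mp hπ.1]
    rw [Finset.sum_congr rfl h1, Finset.sum_const, nsmul_eq_mul,
      ← ENNReal.ofReal_natCast, ← ENNReal.ofReal_mul (Nat.cast_nonneg _)]
    apply ENNReal.ofReal_le_ofReal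
    have hp0 : 0 ≤ (p : ℝ) ^ (n + D) := pow_nonneg p.2.1 _
    calc ((trailsF G (n + D) x y).card : ℝ) * (p : ℝ) ^ (n + D)
        ≤ (C * r ^ (n + D)) * (p : ℝ) ^ (n + D) := mul_le_mul_of_nonneg_right (hT _ _ _) hp0
      _ = C * κ ^ (n + D) := by
        rw [hκd, mul_pow]
        ring
  refine (ENNReal.tsum_le_tsum hterm).trans ?_
  have hs : Summable (fun n : ℕ => C * κ ^ (n + D)) := by
    have := (summable_geometric_of_lt_one hκ0 hκ).mul_left (C * κ ^ D)
    refine this.congr ?_
    intro n
    rw [pow_add]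
    ring
  rw [← ENNReal.ofReal_tsum_of_nonneg (fun n => mul_nonneg hC0 (pow_nonneg hκ0 _)) hs]
  apply ENNReal.ofReal_le_ofReal
  have e : ∀ n : ℕ, C * κ ^ (n + D) = (C * κ ^ D) * κ ^ n := by
    intro n
    rw [pow_add]
    ring
  simp_rw [e]
  rw [tsum_mul_left, tsum_geometric_of_lt_one hκ0 hκ]
  exact le_of_eq (by rw [div_eq_mul_inv])

omit [G.LocallyFinite] in
lemma dist_map_le (hc : G.Connected) (φ : G ≃g G) (u v : V) : G.dist (φ u) (φ v) ≤ G.dist u v := by
  obtain ⟨π, hπ⟩ := hc.exists_walk_length_eq_dist u v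
  have := SimpleGraph.dist_le (π.map φ.toHom)
  rw [SimpleGraph.Walk.length_map, hπ] at this
  exact this

/-- Orbits are unbounded. -/
lemma orbit_far [Infinite V] (hc : G.Connected) (hqt : QuasiTransitive G) (x : V) (D : ℕ) :
    ∃ φ : G ≃g G, D ≤ G.dist x (φ x) := by
  by_contra hcon
  push Not at hcon
  obtain ⟨T, hT⟩ := hqt
  obtain ⟨R, hR⟩ : ∃ R, R = T.sup (fun t => G.dist x t) := ⟨_, rfl⟩
  obtain ⟨v, hv⟩ := Infinite.exists_notMem_finset (ballF G (D + R) x)
  apply hv
  rw [mem_ballF G hc]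
  obtain ⟨t, ht, ψ, rfl⟩ := hT v
  have h1 := hc.dist_triangle (u := x) (v := ψ x) (w := ψ t)
  have h2 := dist_map_le G hc ψ x t
  have h3 := (hcon ψ).le
  have h4 : G.dist x t ≤ R := by
    rw [hR]
    exact Finset.le_sup (f := fun t => G.dist x t) ht
  omega

/-- The relabelling of edges induced by an automorphism. -/
def sym2Equiv (φ : G ≃g G) : Sym2 V ≃ Sym2 V where
  toFun := Sym2.map φ
  invFun := Sym2.map φ.symm
  left_inv := by
    intro e
    induction e using Sym2.ind with
    | _ a b => simp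
  right_inv := by
    intro e
    induction e using Sym2.ind with
    | _ a b => simp

omit [G.LocallyFinite] in
lemma adj_comp (φ : G ≃g G) (ω : Sym2 V → Bool) (u v : V) :
    (openGraph G (ω ∘ sym2Equiv G φ)).Adj u v ↔ (openGraph G ω).Adj (φ u) (φ v) := by
  rw [openGraph_adj, openGraph_adj, φ.map_adj_iff]
  rfl

omit [G.LocallyFinite] in
lemma reachable_comp (φ : G ≃g G) (ω : Sym2 V → Bool) (u v : V) :
    (openGraph G (ω ∘ sym2Equiv G φ)).Reachable u v ↔ (openGraph G ω).Reachable (φ u) (φ v) := by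
  constructor
  · intro h
    let f : openGraph G (ω ∘ sym2Equiv G φ) →g openGraph G ω :=
      ⟨φ, fun {a b} hab => (adj_comp G φ ω a b).mp hab⟩
    exact h.map f
  · intro h
    let f : openGraph G ω →g openGraph G (ω ∘ sym2Equiv G φ) :=
      ⟨φ.symm, fun {a b} hab => (adj_comp G φ ω _ _).mpr (by simpa using hab)⟩
    have := h.map f
    simpa [f] using this

omit [G.LocallyFinite] in
lemma cluster_comp (φ : G ≃g G) (ω : Sym2 V → Bool) (x : V) :
    clusterOf G ω (φ x) = φ '' clusterOf G (ω ∘ sym2Equiv G φ) x := by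
  ext w
  constructor
  · intro h
    refine ⟨φ.symm w, ?_, by simp⟩
    have h' : (openGraph G ω).Reachable (φ x) w := h
    have : (openGraph G ω).Reachable (φ x) (φ (φ.symm w)) := by simpa using h'
    exact (reachable_comp G φ ω x (φ.symm w)).mpr this
  · rintro ⟨v, hv, rfl⟩
    exact (reachable_comp G φ ω x v).mp hv

lemma infEv_comp (hc : G.Connected) (φ : G ≃g G) (ω : Sym2 V → Bool) (x : V) :
    ω ∘ sym2Equiv G φ ∈ infEv G x ↔ ω ∈ infEv G (φ x) := by
  unfold infEv
  rw [← infinite_cluster_iff G hc, ← infinite_cluster_iff G hc, cluster_comp G φ ω x,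
    Set.infinite_image_iff φ.injective.injOn]

lemma meas_infEv_iso (hc : G.Connected) (φ : G ≃g G) (p : unitInterval) (x : V) :
    bondMeasure V p (infEv G (φ x)) = bondMeasure V p (infEv G x) := by
  have hm : Measurable (fun ω : Sym2 V → Bool => ω ∘ sym2Equiv G φ) :=
    measurable_pi_lambda _ (fun i => measurable_pi_apply (sym2Equiv G φ i))
  conv_rhs => rw [← bond_map_comp p (sym2Equiv G φ)]
  rw [Measure.map_apply hm (measSet_infEv G x)]
  congr 1
  ext ω
  exact (infEv_comp G hc φ ω x).symm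

lemma countable_of_connected (hc : G.Connected) : Countable V := by
  obtain ⟨o⟩ := hc.nonempty
  have h : (Set.univ : Set V) = ⋃ n, (↑(ballF G n o) : Set V) := by
    ext v
    simp only [Set.mem_univ, Set.mem_iUnion, Finset.mem_coe, true_iff]
    exact ⟨G.dist o v, (mem_ballF G hc).mpr le_rfl⟩
  have h2 : (Set.univ : Set V).Countable := by
    rw [h]
    exact Set.countable_iUnion (fun n => Finset.countable_toSet _)
  exact Set.countable_univ_iff.mp h2

/-- Harris for the infinite-cluster events. -/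
lemma meas_infEv_harris (hc : G.Connected) (p : unitInterval) (x y : V) :
    bondMeasure V p (infEv G x) * bondMeasure V p (infEv G y)
      ≤ bondMeasure V p (infEv G x ∩ infEv G y) := by
  have hmono : ∀ z : V, ∀ n : ℕ, ∀ A B : Finset (Sym2 V), A ⊆ B →
      reachB (sphereF G n z) A z → reachB (sphereF G n z) B z :=
    fun z n A B h => reachB_mono h
  have hbound : ∀ n, bondMeasure V p (infEv G x) * bondMeasure V p (infEv G y)
      ≤ bondMeasure V p (ballEv G n x ∩ ballEv G n y) := by
    intro n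
    have h1 : bondMeasure V p (infEv G x) ≤ bondMeasure V p (ballEv G n x) :=
      measure_mono (Set.iInter_subset _ n)
    have h2 : bondMeasure V p (infEv G y) ≤ bondMeasure V p (ballEv G n y) :=
      measure_mono (Set.iInter_subset _ n)
    exact (mul_le_mul' h1 h2).trans (meas_harris p _ _ (hmono x n) (hmono y n))
  have hanti : Antitone (fun n => ballEv G n x ∩ ballEv G n y) := fun a b hab =>
    Set.inter_subset_inter (ballEv_anti G hc x hab) (ballEv_anti G hc y hab)
  have hlim := tendsto_measure_iInter_atTop (μ := bondMeasure V p)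
    (s := fun n => ballEv G n x ∩ ballEv G n y)
    (fun n => ((measSet_ballEv G n x).inter (measSet_ballEv G n y)).nullMeasurableSet) hanti
    ⟨0, measure_ne_top _ _⟩
  have hX : (⋂ n, (ballEv G n x ∩ ballEv G n y)) = infEv G x ∩ infEv G y := by
    unfold infEv
    rw [Set.iInter_inter_distrib]
  rw [hX] at hlim
  exact ge_of_tendsto' hlim hbound

end Vale.Agent.Lib.P165
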