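import Vale.Agent.Lib.P165.Phi

/-!
Tree-graph type bound for the event that both endpoints of an edge are connected to `o` off
this edge.
-/

open Finset

noncomputable section

namespace Vale.Agent.Lib.P165

attribute [local instance] Classical.propDecidable

variable {V : Type*}

lemma first_hit {H : SimpleGraph V} {L : Set V} {u v : V} (η : H.Walk u v) (hv : v ∈ L) :
    ∃ w ∈ L, ∃ η' : H.Walk u w, ∀ z ∈ η'.support, z ∈ L → z = w := by
  induction η with
  | nil =>
    exact ⟨_, hv, SimpleGraph.Walk.nil, by simp⟩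
  | @cons a b c h p ih =>
    by_cases ha : a ∈ L
    · exact ⟨a, ha, SimpleGraph.Walk.nil, by simp⟩
    · obtain ⟨w, hw, η', hη'⟩ := ih hv
      refine ⟨w, hw, SimpleGraph.Walk.cons h η', ?_⟩
      intro z hz hzL
      rw [SimpleGraph.Walk.support_cons, List.mem_cons] at hz
      rcases hz with rfl | hz
      · exact absurd hzL ha
      · exact hη' z hz hzL

lemma exists_decomp {H : SimpleGraph V} {o x y : V} (hx : H.Reachable o x) (hy : H.Reachable o y) :
    ∃ w, ∃ (σ₁ : H.Walk o w) (σ₂ : H.Walk w x) (σ₃ : H.Walk w y),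
      (σ₁.edges ++ (σ₂.edges ++ σ₃.edges)).Nodup := by
  obtain ⟨σ, hσ⟩ := hx.exists_isPath
  obtain ⟨η⟩ := hy.symm
  obtain ⟨w, hw, η', hη'⟩ := first_hit (L := {z | z ∈ σ.support}) η σ.start_mem_support
  have hw' : w ∈ σ.support := hw
  have hsub : ∀ z ∈ η'.bypass.support, z ∈ σ.support → z = w := fun z hz hzs =>
    hη' z (η'.support_bypass_subset_support hz) hzs
  refine ⟨w, σ.takeUntil w hw', σ.dropUntil w hw', η'.bypass.reverse, ?_⟩
  have h1 : (σ.takeUntil w hw').edges ++ (σ.dropUntil w hw').edges = σ.edges := by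
    rw [← SimpleGraph.Walk.edges_append, SimpleGraph.Walk.take_spec]
  rw [← List.append_assoc, h1, SimpleGraph.Walk.edges_reverse]
  rw [List.nodup_append]
  refine ⟨hσ.isTrail.edges_nodup, ?_, ?_⟩
  · rw [List.nodup_reverse]
    exact (η'.bypass_isPath).isTrail.edges_nodup
  · intro e he f hf hef
    subst hef
    rw [List.mem_reverse] at hf
    induction e using Sym2.ind with
    | _ a b =>
      have ha1 := σ.fst_mem_support_of_mem_edges he
      have hb1 := σ.snd_mem_support_of_mem_edges he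
      have ha2 := η'.bypass.fst_mem_support_of_mem_edges hf
      have hb2 := η'.bypass.snd_mem_support_of_mem_edges hf
      have : a = b := (hsub a ha2 ha1).trans (hsub b hb2 hb1).symm
      exact (σ.adj_of_mem_edges he).ne this

lemma edges_mapLe {H H' : SimpleGraph V} (h : H ≤ H') {u v : V} (π : H.Walk u v) :
    (π.mapLe h).edges = π.edges := by
  induction π with
  | nil => rfl
  | cons hadj p ih =>
    simp only [SimpleGraph.Walk.mapLe, SimpleGraph.Walk.map_cons, SimpleGraph.Walk.edges_cons]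
    simp only [SimpleGraph.Walk.mapLe] at ih
    rw [ih]
    rfl

variable (G : SimpleGraph V) [G.LocallyFinite] (o : V)

/-- Edge set of a pair of walks. -/
def pairE {w x y : V} (π₂ : G.Walk w x) (π₃ : G.Walk w y) : Finset (Sym2 V) :=
  (π₂.edges ++ π₃.edges).toFinset

/-- Pairs of edge-disjoint trails from `w` to `x` and from `w` to `y` avoiding the edge `xy`. -/
def goodPair {w x y : V} (π₂ : G.Walk w x) (π₃ : G.Walk w y) : Prop :=
  (π₂.edges ++ π₃.edges).Nodup ∧ s(x, y) ∉ π₂.edges ∧ s(x, y) ∉ π₃.edges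

/-- The good pairs of given lengths. -/
def goodPairs (w x y : V) (n₂ n₃ : ℕ) : Finset (G.Walk w x × G.Walk w y) :=
  ((G.finsetWalkLength n₂ w x) ×ˢ (G.finsetWalkLength n₃ w y)).filter
    (fun q => goodPair G q.1 q.2)

/-- Number of good pairs of given lengths. -/
def gp (w x y : V) (n₂ n₃ : ℕ) : ℕ := (goodPairs G w x y n₂ n₃).card

omit [G.LocallyFinite] in
lemma card_pairE {w x y : V} {π₂ : G.Walk w x} {π₃ : G.Walk w y} (h : goodPair G π₂ π₃) :
    (pairE G π₂ π₃).card = π₂.length + π₃.length := by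
  unfold pairE
  rw [List.toFinset_card_of_nodup h.1, List.length_append, SimpleGraph.Walk.length_edges,
    SimpleGraph.Walk.length_edges]

/-- The event attached to a good pair. -/
def evt {w x y : V} (π₂ : G.Walk w x) (π₃ : G.Walk w y) (A : Finset (Sym2 V)) : Prop :=
  pairE G π₂ π₃ ⊆ A ∧ conn (A \ pairE G π₂ π₃) o w

omit [G.LocallyFinite] in
lemma HH_le {S : Finset V} {A : Finset (Sym2 V)} (hA : A ⊆ inE G S) : HH A ≤ G := by
  intro u v h
  have h' : s(u, v) ∈ A ∧ u ≠ v := by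
    simpa [HH, SimpleGraph.fromEdgeSet_adj] using h
  exact adj_of_mem_inE G (hA h'.1)

/-- Deterministic decomposition of the event `de`. -/
lemma de_witness {S : Finset V} (ho : o ∈ S) {A : Finset (Sym2 V)} (hA : A ⊆ inE G S) {x y : V}
    (h1 : conn (A.erase s(x, y)) o x) (h2 : conn (A.erase s(x, y)) o y) :
    ∃ w ∈ S, ∃ (π₂ : G.Walk w x) (π₃ : G.Walk w y),
      goodPair G π₂ π₃ ∧ π₂.length ≤ (inE G S).card ∧ π₃.length ≤ (inE G S).card ∧
      evt G o π₂ π₃ A := by
  have hA' : A.erase s(x, y) ⊆ inE G S := (Finset.erase_subset _ _).trans hA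
  obtain ⟨w, σ₁, σ₂, σ₃, hnd⟩ := exists_decomp h1 h2
  have hle := HH_le G hA'
  have e2 : (σ₂.mapLe hle).edges = σ₂.edges := edges_mapLe hle σ₂
  have e3 : (σ₃.mapLe hle).edges = σ₃.edges := edges_mapLe hle σ₃
  have hnd23 : (σ₂.edges ++ σ₃.edges).Nodup := hnd.of_append_right
  have hdisj := List.disjoint_of_nodup_append hnd
  have hin1 := edges_subset_of_HH σ₁
  have hin2 := edges_subset_of_HH σ₂
  have hin3 := edges_subset_of_HH σ₃
  have hconnA : conn (A \ pairE G (σ₂.mapLe hle) (σ₃.mapLe hle)) o w := by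
    apply conn_of_walk σ₁
    intro e he
    rw [Finset.mem_sdiff]
    refine ⟨Finset.mem_of_mem_erase (hin1 e he), ?_⟩
    unfold pairE
    rw [e2, e3, List.mem_toFinset]
    exact fun h => hdisj he h
  have hw : w ∈ S := conn_mem_of_subset G (hA := (Finset.sdiff_subset).trans hA) ho hconnA
  have hgood : goodPair G (σ₂.mapLe hle) (σ₃.mapLe hle) := by
    unfold goodPair
    rw [e2, e3]
    refine ⟨hnd23, fun h => ?_, fun h => ?_⟩
    · exact (Finset.mem_erase.mp (hin2 _ h)).1 rfl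
    · exact (Finset.mem_erase.mp (hin3 _ h)).1 rfl
  have hsubA : ∀ e ∈ σ₂.edges ++ σ₃.edges, e ∈ inE G S := by
    intro e he
    rcases List.mem_append.mp he with h | h
    · exact hA' (hin2 e h)
    · exact hA' (hin3 e h)
  have hcard : σ₂.edges.length + σ₃.edges.length ≤ (inE G S).card := by
    rw [← List.length_append, ← List.toFinset_card_of_nodup hnd23]
    apply Finset.card_le_card
    intro e he
    exact hsubA e (List.mem_toFinset.mp he)
  rw [SimpleGraph.Walk.length_edges, SimpleGraph.Walk.length_edges] at hcard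
  refine ⟨w, hw, σ₂.mapLe hle, σ₃.mapLe hle, hgood, ?_, ?_, ?_, hconnA⟩
  · rw [SimpleGraph.Walk.length_mapLe]; omega
  · rw [SimpleGraph.Walk.length_mapLe]; omega
  · unfold pairE
    rw [e2, e3]
    intro e he
    have := List.mem_toFinset.mp he
    rcases List.mem_append.mp this with h | h
    · exact Finset.mem_of_mem_erase (hin2 e h)
    · exact Finset.mem_of_mem_erase (hin3 e h)

/-- Pointwise union bound for `de`. -/
lemma de_le_sum {S : Finset V} (ho : o ∈ S) {A : Finset (Sym2 V)} (hA : A ⊆ inE G S) (x y : V) :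
    de o A x y ≤ ∑ w ∈ S, ∑ n₂ ∈ Finset.range ((inE G S).card + 1),
      ∑ n₃ ∈ Finset.range ((inE G S).card + 1), ∑ q ∈ goodPairs G w x y n₂ n₃,
        ind (evt G o q.1 q.2 A) := by
  have hnn4 : ∀ w n₂ n₃, 0 ≤ ∑ q ∈ goodPairs G w x y n₂ n₃, ind (evt G o q.1 q.2 A) :=
    fun _ _ _ => Finset.sum_nonneg (fun _ _ => ind_nonneg _)
  have hnn3 : ∀ w n₂, 0 ≤ ∑ n₃ ∈ Finset.range ((inE G S).card + 1),
      ∑ q ∈ goodPairs G w x y n₂ n₃, ind (evt G o q.1 q.2 A) :=
    fun _ _ => Finset.sum_nonneg (fun _ _ => hnn4 _ _ _)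
  have hnn2 : ∀ w, 0 ≤ ∑ n₂ ∈ Finset.range ((inE G S).card + 1),
      ∑ n₃ ∈ Finset.range ((inE G S).card + 1),
      ∑ q ∈ goodPairs G w x y n₂ n₃, ind (evt G o q.1 q.2 A) :=
    fun _ => Finset.sum_nonneg (fun _ _ => hnn3 _ _)
  by_cases hde : conn (A.erase s(x, y)) o x ∧ conn (A.erase s(x, y)) o y
  · obtain ⟨w, hw, π₂, π₃, hgood, hl2, hl3, hevt⟩ := de_witness G o ho hA hde.1 hde.2
    have hq : (π₂, π₃) ∈ goodPairs G w x y π₂.length π₃.length := by
      unfold goodPairs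
      rw [Finset.mem_filter, Finset.mem_product]
      refine ⟨⟨?_, ?_⟩, hgood⟩
      · exact SimpleGraph.mem_finsetWalkLength_iff.mpr rfl
      · exact SimpleGraph.mem_finsetWalkLength_iff.mpr rfl
    calc de o A x y ≤ 1 := ind_le_one _
      _ = ind (evt G o π₂ π₃ A) := (ind_true hevt).symm
      _ ≤ ∑ q ∈ goodPairs G w x y π₂.length π₃.length, ind (evt G o q.1 q.2 A) :=
        Finset.single_le_sum (f := fun q : G.Walk w x × G.Walk w y => ind (evt G o q.1 q.2 A))
          (fun _ _ => ind_nonneg _) hq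
      _ ≤ _ := Finset.single_le_sum (f := fun n₃ => ∑ q ∈ goodPairs G w x y π₂.length n₃,
            ind (evt G o q.1 q.2 A)) (fun _ _ => hnn4 _ _ _)
          (Finset.mem_range.mpr (Nat.lt_succ_of_le hl3))
      _ ≤ _ := Finset.single_le_sum (f := fun n₂ => ∑ n₃ ∈ Finset.range ((inE G S).card + 1),
            ∑ q ∈ goodPairs G w x y n₂ n₃, ind (evt G o q.1 q.2 A)) (fun _ _ => hnn3 _ _)
          (Finset.mem_range.mpr (Nat.lt_succ_of_le hl2))
      _ ≤ _ := Finset.single_le_sum (f := fun w => ∑ n₂ ∈ Finset.range ((inE G S).card + 1),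
            ∑ n₃ ∈ Finset.range ((inE G S).card + 1),
            ∑ q ∈ goodPairs G w x y n₂ n₃, ind (evt G o q.1 q.2 A)) (fun _ _ => hnn2 _) hw
  · unfold de
    rw [ind_false hde]
    exact Finset.sum_nonneg (fun _ _ => hnn2 _)

/-- Probability of the event attached to a good pair. -/
lemma Ex_evt {S : Finset V} {p : ℝ} (hp0 : 0 ≤ p) (hp1 : p ≤ 1) {w x y : V} {π₂ : G.Walk w x}
    {π₃ : G.Walk w y} (hg : goodPair G π₂ π₃) :
    Ex p (inE G S) (fun A => ind (evt G o π₂ π₃ A))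
      ≤ p ^ (π₂.length + π₃.length) * tt G o S p w := by
  have htt := tt_nonneg G o hp0 hp1 (S := S) (p := p) w
  obtain ⟨F, hF⟩ : ∃ F, F = inE G S := ⟨_, rfl⟩
  obtain ⟨F', hF'⟩ : ∃ F', F' = pairE G π₂ π₃ := ⟨_, rfl⟩
  have hcard : F'.card = π₂.length + π₃.length := by
    rw [hF']; exact card_pairE G hg
  by_cases hsub : F' ⊆ F
  · have hd : Disjoint F' (F \ F') := Finset.disjoint_sdiff
    have hu : F' ∪ (F \ F') = F := Finset.union_sdiff_of_subset hsub
    have h1 : Ex p F (fun A => ind (evt G o π₂ π₃ A))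
        = Ex p (F' ∪ (F \ F')) (fun A => ind (A ∩ F' = F') * ind (conn (A ∩ (F \ F')) o w)) := by
      rw [hu]
      apply Ex_congr
      intro A hA
      have hsd : A ∩ (F \ F') = A \ F' := by
        ext e
        simp only [Finset.mem_inter, Finset.mem_sdiff]
        constructor
        · rintro ⟨a, _, b⟩
          exact ⟨a, b⟩
        · rintro ⟨a, b⟩
          exact ⟨a, hA a, b⟩
      rw [hsd]
      unfold evt
      rw [← hF']
      by_cases hc : F' ⊆ A
      · have h2 : A ∩ F' = F' := Finset.inter_eq_right.mpr hc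
        rw [ind_true h2, one_mul]
        by_cases hc2 : conn (A \ F') o w
        · rw [ind_true hc2, ind_true (⟨hc, hc2⟩ : F' ⊆ A ∧ conn (A \ F') o w)]
        · rw [ind_false hc2, ind_false (fun h : F' ⊆ A ∧ conn (A \ F') o w => hc2 h.2)]
      · have h2 : ¬ A ∩ F' = F' := fun h => hc (Finset.inter_eq_right.mp h)
        rw [ind_false h2, zero_mul, ind_false (fun h : F' ⊆ A ∧ conn (A \ F') o w => hc h.1)]
    have h2 := Ex_union (p := p) hd (fun A => ind (A = F')) (fun A => ind (conn A o w))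
    have h3 : Ex p (F \ F') (fun A => ind (conn A o w)) ≤ tt G o S p w := by
      rw [← Ex_marginal (p := p) (Finset.sdiff_subset : F \ F' ⊆ F)]
      unfold tt
      rw [← hF]
      apply Ex_mono hp0 hp1
      intro A _
      exact ind_mono (conn_mono Finset.inter_subset_left)
    rw [← hF, h1, h2, Ex_eq_self, hcard]
    exact mul_le_mul_of_nonneg_left h3 (pow_nonneg hp0 _)
  · have : Ex p F (fun A => ind (evt G o π₂ π₃ A)) = Ex p F (fun _ => 0) := by
      apply Ex_congr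
      intro A hA
      apply ind_false
      unfold evt
      rw [← hF']
      rintro ⟨h, _⟩
      exact hsub (h.trans hA)
    rw [← hF, this, Ex_const]
    exact mul_nonneg (pow_nonneg hp0 _) htt

/-- The expected value of `de`. -/
lemma Ex_de_le {S : Finset V} (ho : o ∈ S) {p : ℝ} (hp0 : 0 ≤ p) (hp1 : p ≤ 1) (x y : V) :
    Ex p (inE G S) (fun A => de o A x y)
      ≤ ∑ w ∈ S, tt G o S p w * ∑ n₂ ∈ Finset.range ((inE G S).card + 1),
        ∑ n₃ ∈ Finset.range ((inE G S).card + 1), p ^ (n₂ + n₃) * (gp G w x y n₂ n₃ : ℝ) := by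
  have h1 : Ex p (inE G S) (fun A => de o A x y)
      ≤ Ex p (inE G S) (fun A => ∑ w ∈ S, ∑ n₂ ∈ Finset.range ((inE G S).card + 1),
      ∑ n₃ ∈ Finset.range ((inE G S).card + 1), ∑ q ∈ goodPairs G w x y n₂ n₃,
        ind (evt G o q.1 q.2 A)) :=
    Ex_mono hp0 hp1 (fun A hA => de_le_sum G o ho hA x y)
  refine h1.trans ?_
  rw [Ex_sum]
  apply Finset.sum_le_sum
  intro w _
  rw [Ex_sum, Finset.mul_sum]
  apply Finset.sum_le_sum
  intro n₂ _
  rw [Ex_sum, Finset.mul_sum]
  apply Finset.sum_le_sum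
  intro n₃ _
  rw [Ex_sum]
  have h2 : ∀ q ∈ goodPairs G w x y n₂ n₃,
      Ex p (inE G S) (fun A => ind (evt G o q.1 q.2 A)) ≤ p ^ (n₂ + n₃) * tt G o S p w := by
    intro q hq
    unfold goodPairs at hq
    rw [Finset.mem_filter, Finset.mem_product] at hq
    have l2 := SimpleGraph.mem_finsetWalkLength_iff.mp hq.1.1
    have l3 := SimpleGraph.mem_finsetWalkLength_iff.mp hq.1.2
    have := Ex_evt G o (S := S) hp0 hp1 hq.2
    rwa [l2, l3] at this
  calc ∑ q ∈ goodPairs G w x y n₂ n₃, Ex p (inE G S) (fun A => ind (evt G o q.1 q.2 A))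
      ≤ ∑ _q ∈ goodPairs G w x y n₂ n₃, p ^ (n₂ + n₃) * tt G o S p w := Finset.sum_le_sum h2
    _ = tt G o S p w * (p ^ (n₂ + n₃) * (gp G w x y n₂ n₃ : ℝ)) := by
      rw [Finset.sum_const, nsmul_eq_mul]
      unfold gp
      ring

omit [G.LocallyFinite] in
lemma sum_triple_swap (S : Finset V) (nbf : V → Finset V) (t : V → ℝ) (T : V → V → V → ℝ) :
    ∑ x ∈ S, ∑ y ∈ nbf x, ∑ w ∈ S, t w * T w x y = ∑ w ∈ S, t w * ∑ x ∈ S, ∑ y ∈ nbf x, T w x y := by
  calc ∑ x ∈ S, ∑ y ∈ nbf x, ∑ w ∈ S, t w * T w x y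
      = ∑ x ∈ S, ∑ w ∈ S, ∑ y ∈ nbf x, t w * T w x y :=
        Finset.sum_congr rfl (fun x _ => Finset.sum_comm)
    _ = ∑ w ∈ S, ∑ x ∈ S, ∑ y ∈ nbf x, t w * T w x y := Finset.sum_comm
    _ = _ := by
      apply Finset.sum_congr rfl
      intro w _
      rw [Finset.mul_sum]
      apply Finset.sum_congr rfl
      intro x _
      rw [Finset.mul_sum]

/-- The bound on the sum of the `de` terms, in terms of a uniform bound on good pairs. -/
theorem Ds_le {S : Finset V} (ho : o ∈ S) {p : ℝ} (hp0 : 0 ≤ p) (hp1 : p ≤ 1) {B' : ℝ}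
    (hB : ∀ w ∈ S, ∑ x ∈ S, ∑ y ∈ nb G S x, ∑ n₂ ∈ Finset.range ((inE G S).card + 1),
      ∑ n₃ ∈ Finset.range ((inE G S).card + 1), p ^ (n₂ + n₃) * (gp G w x y n₂ n₃ : ℝ) ≤ B') :
    ∑ x ∈ S, ∑ y ∈ nb G S x, Ex p (inE G S) (fun A => de o A x y)
      ≤ (∑ x ∈ S, tt G o S p x) * B' := by
  have h1 : ∑ x ∈ S, ∑ y ∈ nb G S x, Ex p (inE G S) (fun A => de o A x y)
      ≤ ∑ x ∈ S, ∑ y ∈ nb G S x, ∑ w ∈ S, tt G o S p w *
        ∑ n₂ ∈ Finset.range ((inE G S).card + 1),
        ∑ n₃ ∈ Finset.range ((inE G S).card + 1), p ^ (n₂ + n₃) * (gp G w x y n₂ n₃ : ℝ) :=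
    Finset.sum_le_sum (fun x _ => Finset.sum_le_sum (fun y _ => Ex_de_le G o ho hp0 hp1 x y))
  refine h1.trans ?_
  rw [sum_triple_swap]
  rw [Finset.sum_mul]
  apply Finset.sum_le_sum
  intro w hw
  exact mul_le_mul_of_nonneg_left (hB w hw) (tt_nonneg G o hp0 hp1 w)

end Vale.Agent.Lib.P165
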