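import Vale.Agent.Lib.P165.TG

/-!
Counting walks: recursion, composition, Cauchy-Schwarz and decay of closed walks.
-/

open Finset

noncomputable section

namespace Vale.Agent.Lib.P165

attribute [local instance] Classical.propDecidable

variable {V : Type*} (G : SimpleGraph V) [G.LocallyFinite]

/-- Number of walks of length `n` from `x` to `y`, by recursion. -/
def wc : ℕ → V → V → ℕ
  | 0, x, y => if x = y then 1 else 0
  | n + 1, x, y => ∑ z ∈ G.neighborFinset x, wc n z y

lemma wc_zero (x y : V) : wc G 0 x y = if x = y then 1 else 0 := rfl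

lemma wc_succ (n : ℕ) (x y : V) : wc G (n + 1) x y = ∑ z ∈ G.neighborFinset x, wc G n z y := rfl

lemma card_finsetWalkLength (n : ℕ) (x y : V) : (G.finsetWalkLength n x y).card = wc G n x y := by
  induction n generalizing x with
  | zero =>
    by_cases h : x = y
    · subst h
      simp [SimpleGraph.finsetWalkLength, wc_zero]
    · simp [SimpleGraph.finsetWalkLength, wc_zero, h]
  | succ n ih =>
    rw [wc_succ]
    unfold SimpleGraph.finsetWalkLength
    rw [Finset.card_biUnion]
    · simp only [Finset.card_map, ih]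
      exact Finset.sum_set_coe (G.neighborSet x) (f := fun z => wc G n z y)
    · intro a _ b _ hab
      refine Finset.disjoint_left.mpr ?_
      intro π h1 h2
      simp only [Finset.mem_map, Function.Embedding.coeFn_mk] at h1 h2
      obtain ⟨p, _, hp⟩ := h1
      obtain ⟨q, _, hq⟩ := h2
      rw [← hq] at hp
      have := SimpleGraph.Walk.cons.inj hp
      exact hab (Subtype.ext this.1)

lemma wc_succ_right (n : ℕ) (x y : V) :
    wc G (n + 1) x y = ∑ z ∈ G.neighborFinset y, wc G n x z := by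
  induction n generalizing x with
  | zero =>
    rw [wc_succ]
    simp only [wc_zero]
    rw [Finset.sum_ite_eq' (G.neighborFinset x) y, Finset.sum_ite_eq (G.neighborFinset y) x]
    simp only [SimpleGraph.mem_neighborFinset]
    by_cases h : G.Adj x y
    · simp [h, h.symm]
    · have h' : ¬ G.Adj y x := fun hh => h hh.symm
      simp [h, h']
  | succ n ih =>
    rw [wc_succ]
    simp_rw [ih]
    rw [Finset.sum_comm]
    apply Finset.sum_congr rfl
    intro z _
    rw [wc_succ]

lemma wc_symm (n : ℕ) (x y : V) : wc G n x y = wc G n y x := by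
  induction n generalizing x y with
  | zero =>
    simp only [wc_zero]
    by_cases h : x = y
    · simp [h]
    · have h' : ¬ y = x := fun hh => h hh.symm
      simp [h, h']
  | succ n ih =>
    rw [wc_succ, wc_succ_right]
    apply Finset.sum_congr rfl
    intro z _
    exact ih z y

/-- A finite set containing all endpoints of walks of length `n` from `x`. -/
def reachF : ℕ → V → Finset V
  | 0, x => {x}
  | n + 1, x => (G.neighborFinset x).biUnion (reachF n)

lemma mem_reachF_of_wc_ne {n : ℕ} {x y : V} (h : wc G n x y ≠ 0) : y ∈ reachF G n x := by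
  induction n generalizing x with
  | zero =>
    rw [wc_zero] at h
    by_cases hxy : x = y
    · subst hxy
      simp [reachF]
    · simp [hxy] at h
  | succ n ih =>
    rw [wc_succ] at h
    obtain ⟨z, hz, hzne⟩ := Finset.exists_ne_zero_of_sum_ne_zero h
    exact Finset.mem_biUnion.mpr ⟨z, hz, ih hzne⟩

/-- Composition of walk counts. -/
lemma wc_add {i j : ℕ} {x y : V} {T : Finset V} (hT : reachF G i x ⊆ T) :
    wc G (i + j) x y = ∑ z ∈ T, wc G i x z * wc G j z y := by
  induction i generalizing x with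
  | zero =>
    have hx : x ∈ T := hT (by simp [reachF])
    simp only [zero_add, wc_zero]
    rw [Finset.sum_eq_single x]
    · simp
    · intro z _ hz
      simp [hz.symm]
    · exact fun h => absurd hx h
  | succ i ih =>
    have e : i + 1 + j = (i + j) + 1 := by ring
    rw [e, wc_succ]
    have h1 : ∀ u ∈ G.neighborFinset x, wc G (i + j) u y = ∑ z ∈ T, wc G i u z * wc G j z y := by
      intro u hu
      apply ih
      exact fun z hz => hT (Finset.mem_biUnion.mpr ⟨u, hu, hz⟩)
    rw [Finset.sum_congr rfl h1, Finset.sum_comm]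
    apply Finset.sum_congr rfl
    intro z _
    rw [wc_succ, Finset.sum_mul]

/-- A partial composition sum is bounded by the total count. -/
lemma sum_wc_le (i j : ℕ) (x y : V) (S : Finset V) :
    ∑ z ∈ S, wc G i x z * wc G j z y ≤ wc G (i + j) x y := by
  rw [wc_add G (T := S ∪ reachF G i x) (Finset.subset_union_right)]
  exact Finset.sum_le_sum_of_subset (Finset.subset_union_left)

/-- Cauchy-Schwarz for walk counts. -/
lemma wc_cs (i j : ℕ) (x y : V) :
    (wc G (i + j) x y : ℝ) ^ 2 ≤ (wc G (i + i) x x : ℝ) * (wc G (j + j) y y : ℝ) := by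
  obtain ⟨T, hT⟩ : ∃ T, T = reachF G i x ∪ reachF G j y := ⟨_, rfl⟩
  have h1 : reachF G i x ⊆ T := by rw [hT]; exact Finset.subset_union_left
  have h2 : reachF G j y ⊆ T := by rw [hT]; exact Finset.subset_union_right
  have e1 : (wc G (i + j) x y : ℝ) = ∑ z ∈ T, (wc G i x z : ℝ) * (wc G j y z : ℝ) := by
    rw [wc_add G h1]
    push_cast
    apply Finset.sum_congr rfl
    intro z _
    rw [wc_symm G j z y]
  have e2 : (wc G (i + i) x x : ℝ) = ∑ z ∈ T, (wc G i x z : ℝ) ^ 2 := by
    rw [wc_add G h1]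
    push_cast
    apply Finset.sum_congr rfl
    intro z _
    rw [wc_symm G i z x]
    ring
  have e3 : (wc G (j + j) y y : ℝ) = ∑ z ∈ T, (wc G j y z : ℝ) ^ 2 := by
    rw [wc_add G h2]
    push_cast
    apply Finset.sum_congr rfl
    intro z _
    rw [wc_symm G j z y]
    ring
  rw [e1, e2, e3]
  exact Finset.sum_mul_sq_le_sq_mul_sq T _ _

lemma wc_two (w : V) : wc G 2 w w = G.degree w := by
  have : wc G 2 w w = ∑ z ∈ G.neighborFinset w, wc G 1 z w := wc_succ G 1 w w
  rw [this]
  have h : ∀ z ∈ G.neighborFinset w, wc G 1 z w = 1 := by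
    intro z hz
    rw [wc_succ_right]
    simp only [wc_zero]
    rw [Finset.sum_ite_eq (G.neighborFinset w) z]
    simp [hz]
  rw [Finset.sum_congr rfl h]
  simp

lemma wc_one_self (w : V) : wc G 1 w w = 0 := by
  rw [wc_succ]
  simp only [wc_zero]
  rw [Finset.sum_ite_eq' (G.neighborFinset w) w]
  simp

/-- Log-convex sequences with geometric growth have bounded ratios. -/
lemma logconvex_ratio (b : ℕ → ℝ) (hb : ∀ k, 0 ≤ b k) (hlc : ∀ k, b (k + 1) ^ 2 ≤ b k * b (k + 2))
    {R : ℝ} (hR : 0 ≤ R) (hbd : ∀ k, b k ≤ R ^ k) (k : ℕ) : b (k + 1) ≤ R * b k := by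
  by_contra hcon
  push Not at hcon
  have hX : 0 < b (k + 1) := lt_of_le_of_lt (mul_nonneg hR (hb k)) hcon
  have hbk : 0 < b k := by
    have h := hlc k
    rcases (hb k).lt_or_eq with h0 | h0
    · exact h0
    · exfalso
      rw [← h0, zero_mul] at h
      nlinarith [sq_pos_of_pos hX]
  obtain ⟨q, hq⟩ : ∃ q, q = b (k + 1) / b k := ⟨_, rfl⟩
  have hqR : R < q := by
    rw [hq, lt_div_iff₀ hbk]
    exact hcon
  have hq0 : 0 < q := lt_of_le_of_lt hR hqR
  have hstep : ∀ j, 0 < b (k + j) ∧ q * b (k + j) ≤ b (k + j + 1) := by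
    intro j
    induction j with
    | zero =>
      refine ⟨hbk, ?_⟩
      rw [hq]
      simp only [add_zero]
      rw [div_mul_cancel₀ _ hbk.ne']
    | succ j ih =>
      obtain ⟨h1, h2⟩ := ih
      have hpos : 0 < b (k + j + 1) := lt_of_lt_of_le (mul_pos hq0 h1) h2
      refine ⟨hpos, ?_⟩
      have h3 := hlc (k + j)
      have h4 : q * b (k + j + 1) * b (k + j) ≤ b (k + j + 1) * b (k + j + 1) := by
        have := mul_le_mul_of_nonneg_left h2 hpos.le
        nlinarith
      have h5 : b (k + j + 1) * b (k + j + 1) ≤ b (k + j + 2) * b (k + j) := by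
        nlinarith
      have h6 : q * b (k + j + 1) * b (k + j) ≤ b (k + j + 2) * b (k + j) := h4.trans h5
      exact le_of_mul_le_mul_right h6 h1
  have hgrow : ∀ j, q ^ j * b k ≤ b (k + j) := by
    intro j
    induction j with
    | zero => simp
    | succ j ih =>
      have h1 := (hstep j).2
      calc q ^ (j + 1) * b k = q * (q ^ j * b k) := by ring
        _ ≤ q * b (k + j) := mul_le_mul_of_nonneg_left ih hq0.le
        _ ≤ b (k + j + 1) := h1
  rcases hR.lt_or_eq with hRpos | hR0
  · have hratio : 1 < q / R := by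
      rw [one_lt_div hRpos]
      exact hqR
    obtain ⟨j, hj⟩ := pow_unbounded_of_one_lt (R ^ k / b k) hratio
    have h1 := (hgrow j).trans (hbd (k + j))
    have h2 : (q / R) ^ j * b k ≤ R ^ k := by
      rw [div_pow]
      have hRj : 0 < R ^ j := pow_pos hRpos j
      rw [div_mul_eq_mul_div, div_le_iff₀ hRj]
      rw [pow_add] at h1
      exact h1
    rw [div_lt_iff₀ hbk] at hj
    linarith
  · have h1 := (hgrow 1).trans (hbd (k + 1))
    rw [← hR0] at h1
    simp only [pow_one] at h1
    rw [zero_pow (Nat.succ_ne_zero k)] at h1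
    have := mul_pos hq0 hbk
    linarith

section Spectral

variable {r : ℝ}

/-- All walk counts are bounded by powers of `r`. -/
lemma wc_le_pow (hr0 : 0 ≤ r) (hr : ∀ x n, (wc G (2 * n) x x : ℝ) ≤ r ^ (2 * n)) (n : ℕ)
    (x y : V) : (wc G n x y : ℝ) ≤ r ^ n := by
  obtain ⟨i, j, hij, hi, hj⟩ : ∃ i j, i + j = n ∧ i + i = 2 * i ∧ j + j = 2 * j :=
    ⟨n / 2, n - n / 2, by omega, by omega, by omega⟩
  have h := wc_cs G i j x y
  rw [hij, hi, hj] at h
  have h1 : (wc G (2 * i) x x : ℝ) * (wc G (2 * j) y y : ℝ) ≤ r ^ (2 * i) * r ^ (2 * j) :=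
    mul_le_mul (hr x i) (hr y j) (Nat.cast_nonneg _) (pow_nonneg hr0 _)
  have h2 : r ^ (2 * i) * r ^ (2 * j) = (r ^ n) ^ 2 := by
    rw [← hij, ← pow_add, ← pow_mul]
    congr 1
    ring
  rw [h2] at h1
  have h3 : (wc G n x y : ℝ) ^ 2 ≤ (r ^ n) ^ 2 := h.trans h1
  exact (pow_le_pow_iff_left₀ (Nat.cast_nonneg _) (pow_nonneg hr0 _) (by norm_num)).mp h3

/-- Even closed walks decay at rate `r`, with the initial value given by the degree. -/
lemma wc_even_le (hr0 : 0 ≤ r) (hr : ∀ x n, (wc G (2 * n) x x : ℝ) ≤ r ^ (2 * n)) (w : V) (k : ℕ) :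
    (wc G (2 * (k + 1)) w w : ℝ) ≤ (G.degree w : ℝ) * r ^ (2 * k) := by
  have hlc : ∀ k, ((wc G (2 * (k + 1)) w w : ℕ) : ℝ) ^ 2
      ≤ (wc G (2 * k) w w : ℝ) * (wc G (2 * (k + 2)) w w : ℝ) := by
    intro k
    have h := wc_cs G k (k + 2) w w
    have e1 : k + (k + 2) = 2 * (k + 1) := by ring
    have e2 : k + k = 2 * k := by ring
    have e3 : k + 2 + (k + 2) = 2 * (k + 2) := by ring
    rw [e1, e2, e3] at h
    exact h
  have hratio := logconvex_ratio (fun k => (wc G (2 * k) w w : ℝ)) (fun _ => Nat.cast_nonneg _)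
    hlc (R := r ^ 2) (by positivity) (fun k => by
      have := hr w k
      rwa [pow_mul] at this)
  induction k with
  | zero =>
    have : wc G (2 * (0 + 1)) w w = G.degree w := wc_two G w
    rw [this]
    simp
  | succ k ih =>
    have h : (wc G (2 * (k + 1 + 1)) w w : ℝ) ≤ r ^ 2 * (wc G (2 * (k + 1)) w w : ℝ) :=
      hratio (k + 1)
    have e : r ^ (2 * (k + 1)) = r ^ 2 * r ^ (2 * k) := by
      rw [← pow_add]
      congr 1
      ring
    rw [e]
    calc (wc G (2 * (k + 1 + 1)) w w : ℝ) ≤ r ^ 2 * (wc G (2 * (k + 1)) w w : ℝ) := h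
      _ ≤ r ^ 2 * ((G.degree w : ℝ) * r ^ (2 * k)) := mul_le_mul_of_nonneg_left ih (by positivity)
      _ = _ := by ring

/-- Closed walks of length `m ≥ 2` are bounded by `degree * r ^ (m - 2)`. -/
lemma wc_closed_le (hr0 : 0 ≤ r) (hr : ∀ x n, (wc G (2 * n) x x : ℝ) ≤ r ^ (2 * n)) (w : V)
    (m : ℕ) : (wc G (m + 2) w w : ℝ) ≤ (G.degree w : ℝ) * r ^ m := by
  rcases Nat.even_or_odd' m with ⟨k, rfl | rfl⟩
  · have := wc_even_le G hr0 hr w k
    have e : 2 * k + 2 = 2 * (k + 1) := by ring
    rw [e]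
    exact this
  · have h := wc_cs G (k + 1) (k + 2) w w
    have e1 : k + 1 + (k + 2) = 2 * k + 1 + 2 := by ring
    have e2 : k + 1 + (k + 1) = 2 * (k + 1) := by ring
    have e3 : k + 2 + (k + 2) = 2 * (k + 1 + 1) := by ring
    rw [e1, e2, e3] at h
    have h1 := wc_even_le G hr0 hr w k
    have h2 := wc_even_le G hr0 hr w (k + 1)
    have h3 : (wc G (2 * (k + 1)) w w : ℝ) * (wc G (2 * (k + 1 + 1)) w w : ℝ)
        ≤ ((G.degree w : ℝ) * r ^ (2 * k)) * ((G.degree w : ℝ) * r ^ (2 * (k + 1))) :=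
      mul_le_mul h1 h2 (Nat.cast_nonneg _) (mul_nonneg (Nat.cast_nonneg _) (pow_nonneg hr0 _))
    have h4 : ((G.degree w : ℝ) * r ^ (2 * k)) * ((G.degree w : ℝ) * r ^ (2 * (k + 1)))
        = ((G.degree w : ℝ) * r ^ (2 * k + 1)) ^ 2 := by
      have : r ^ (2 * (k + 1)) = r ^ (2 * k) * r ^ 2 := by rw [← pow_add]; congr 1
      rw [this]
      have : r ^ (2 * k + 1) = r ^ (2 * k) * r := by rw [pow_succ]
      rw [this]
      ring
    rw [h4] at h3
    have h5 : (wc G (2 * k + 1 + 2) w w : ℝ) ^ 2 ≤ ((G.degree w : ℝ) * r ^ (2 * k + 1)) ^ 2 :=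
      h.trans h3
    exact (pow_le_pow_iff_left₀ (Nat.cast_nonneg _)
      (mul_nonneg (Nat.cast_nonneg _) (pow_nonneg hr0 _)) (by norm_num)).mp h5

end Spectral

end Vale.Agent.Lib.P165
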